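import Mathlib.Order.Monotone.Basic
import Mathlib.Data.Nat.Find
import Mathlib.Algebra.BigOperators.Group.Finset.Basic
import Mathlib.Algebra.Order.BigOperators.Group.Finset
import Mathlib.Tactic.Linarith
import Mathlib.Tactic.Ring

/-!
# P106 / U / H823 : the path by unit steps from two monotone functions (pure combinatorics)

`F a` (own slope) and `R a` (line, second word) are the levels at the `a`-step of level `a`; `R ≤ F`, both monotone.
The path: at level `a` first `f`-steps up to `F a`, then `k`-steps up to `R a`, then the `a`-step.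

* `J a = a + F a + R a` : index of the `a`-step of level `a`; `lev j`, `f j`, `k j` : the triple before the step `j`.
* `kd j` : kind of the step `j` (`0` = `a`-step, `1` = `f`-step, `2` = `k`-step).
* `step_a`, `step_f`, `step_k` : the three kinds of steps; `kd_cases`.
* `lev_J`, `f_J`, `k_J` : the triple at `J a` is `(a, F a, R a)`; `sum_eq` : `lev j + f j + k j = j`.
* `k_le_f`, `f_le`, `k_le`, `le_f`, `le_k` : bounds; monotonicity `lev_mono`, `f_mono`, `k_mono`.
* `Rb j b = min (k j + b) (f j)` : level of the cell of cap `b`; it grows by at most one per step.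
* `run_k`, `run_f` : a run at the level `a` has length `R a - R (a - 1)`, `F a - F (a - 1)`.
* `Wd2` : second word below the first; `long` : a long run starts where `RI (a - 1) ≤ R (a - 1) + 1 + s`.
* `stop` : truncation of the path at the level `A`.
-/

set_option autoImplicit false

namespace Vale.Agent.P106.U.H823.PathP

/-- the levels at the `a`-steps -/
structure Lv where
  /-- own slope -/
  F : ℕ → ℕ
  /-- line -/
  R : ℕ → ℕ
  F_mono : Monotone F
  R_mono : Monotone R
  R_le : ∀ a, R a ≤ F a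

namespace Lv

variable (L : Lv)

/-- level at the beginning of the steps of the level `a` -/
def Fm (a : ℕ) : ℕ := if a = 0 then 0 else L.F (a - 1)
def Rm (a : ℕ) : ℕ := if a = 0 then 0 else L.R (a - 1)

/-- index of the `a`-step of the level `a` -/
def J (a : ℕ) : ℕ := a + L.F a + L.R a

theorem Fm_le (a : ℕ) : L.Fm a ≤ L.F a := by
  unfold Fm
  split_ifs
  · exact Nat.zero_le _
  · exact L.F_mono (Nat.sub_le _ _)

theorem Rm_le (a : ℕ) : L.Rm a ≤ L.R a := by
  unfold Rm
  split_ifs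
  · exact Nat.zero_le _
  · exact L.R_mono (Nat.sub_le _ _)

theorem Rm_le_Fm (a : ℕ) : L.Rm a ≤ L.Fm a := by
  unfold Rm Fm
  split_ifs
  · exact le_rfl
  · exact L.R_le _

@[simp] theorem Fm_zero : L.Fm 0 = 0 := rfl
@[simp] theorem Rm_zero : L.Rm 0 = 0 := rfl
@[simp] theorem Fm_succ (a : ℕ) : L.Fm (a + 1) = L.F a := by simp [Fm]
@[simp] theorem Rm_succ (a : ℕ) : L.Rm (a + 1) = L.R a := by simp [Rm]

theorem J_lt {a b : ℕ} (h : a < b) : L.J a < L.J b := by
  unfold J
  have h1 := L.F_mono h.le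
  have h2 := L.R_mono h.le
  omega

theorem J_mono : StrictMono L.J := fun _ _ h => L.J_lt h

theorem le_J (a : ℕ) : a ≤ L.J a := by
  unfold J
  omega

theorem ex_lev (j : ℕ) : ∃ a, j ≤ L.J a := ⟨j, L.le_J j⟩

/-- the level before the step `j` -/
def lev (j : ℕ) : ℕ := Nat.find (L.ex_lev j)

theorem le_J_lev (j : ℕ) : j ≤ L.J (L.lev j) := Nat.find_spec (L.ex_lev j)

theorem J_lt_of_lt {a j : ℕ} (h : a < L.lev j) : L.J a < j := by
  have := Nat.find_min (L.ex_lev j) h
  omega

/-- characterisation of the level -/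
theorem lev_eq {a j : ℕ} (h1 : j ≤ L.J a) (h2 : ∀ b < a, L.J b < j) : L.lev j = a := by
  refine le_antisymm (Nat.find_min' _ h1) ?_
  by_contra hcon
  have h3 := h2 _ (not_le.1 hcon)
  have h4 := L.le_J_lev j
  omega

theorem lev_le {a j : ℕ} (h : j ≤ L.J a) : L.lev j ≤ a := Nat.find_min' _ h

theorem lev_J (a : ℕ) : L.lev (L.J a) = a := L.lev_eq le_rfl fun _ h => L.J_lt h

@[simp] theorem lev_zero : L.lev 0 = 0 := L.lev_eq (Nat.zero_le _) fun _ h => absurd h (Nat.not_lt_zero _)

/-- the sum of the levels at the beginning of the level -/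
theorem beg_le (j : ℕ) : L.lev j + L.Fm (L.lev j) + L.Rm (L.lev j) ≤ j := by
  rcases h : L.lev j with _ | a
  · simp
  · have h1 := L.J_lt_of_lt (a := a) (j := j) (by omega)
    rw [Fm_succ, Rm_succ]
    unfold J at h1
    omega

/-- own slope before the step `j` -/
def f (j : ℕ) : ℕ := min (L.F (L.lev j)) (j - L.lev j - L.Rm (L.lev j))

/-- line before the step `j` -/
def k (j : ℕ) : ℕ := j - L.lev j - L.f j

theorem f_le (j : ℕ) : L.f j ≤ L.F (L.lev j) := min_le_left _ _

theorem le_f (j : ℕ) : L.Fm (L.lev j) ≤ L.f j := by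
  have h1 := L.beg_le j
  have h2 := L.Fm_le (L.lev j)
  unfold f
  omega

theorem f_le' (j : ℕ) : L.f j ≤ j - L.lev j - L.Rm (L.lev j) := min_le_right _ _

theorem sum_eq (j : ℕ) : L.lev j + L.f j + L.k j = j := by
  have h1 := L.beg_le j
  have h2 := L.f_le' j
  unfold k
  omega

theorem le_k (j : ℕ) : L.Rm (L.lev j) ≤ L.k j := by
  have h1 := L.beg_le j
  have h2 := L.f_le' j
  unfold k
  omega

theorem k_le (j : ℕ) : L.k j ≤ L.R (L.lev j) := by
  have h1 := L.sum_eq j
  have h2 := L.le_J_lev j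
  have h3 := L.Rm_le (L.lev j)
  have h4 := L.beg_le j
  unfold J at h2
  unfold f at h1
  omega

/-- either the own slope is complete or the line has not moved -/
theorem f_or (j : ℕ) : L.f j = L.F (L.lev j) ∨ (L.f j < L.F (L.lev j) ∧ L.k j = L.Rm (L.lev j)) := by
  have h1 := L.sum_eq j
  have h4 := L.beg_le j
  have h5 := L.f_le j
  have h6 : L.f j = min (L.F (L.lev j)) (j - L.lev j - L.Rm (L.lev j)) := rfl
  omega

theorem k_le_f (j : ℕ) : L.k j ≤ L.f j := by
  rcases L.f_or j with h | ⟨_, h⟩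
  · rw [h]
    exact (L.k_le j).trans (L.R_le _)
  · rw [h]
    exact (L.Rm_le_Fm _).trans (L.le_f j)

theorem f_J (a : ℕ) : L.f (L.J a) = L.F a := by
  have h1 := L.Rm_le a
  unfold f
  rw [L.lev_J]
  unfold J
  omega

theorem k_J (a : ℕ) : L.k (L.J a) = L.R a := by
  have h1 := L.sum_eq (L.J a)
  rw [L.lev_J, L.f_J] at h1
  unfold J at h1 ⊢
  omega

@[simp] theorem f_zero : L.f 0 = 0 := by
  have := L.sum_eq 0
  omega

@[simp] theorem k_zero : L.k 0 = 0 := by
  have := L.sum_eq 0
  omega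

/-- kind of the step `j`: `0` = `a`-step, `1` = `f`-step, `2` = `k`-step -/
def kd (j : ℕ) : ℕ := if j = L.J (L.lev j) then 0 else if L.f j < L.F (L.lev j) then 1 else 2

theorem kd_cases (j : ℕ) : L.kd j = 0 ∨ L.kd j = 1 ∨ L.kd j = 2 := by
  unfold kd
  split_ifs <;> simp

theorem kd_zero_iff (j : ℕ) : L.kd j = 0 ↔ j = L.J (L.lev j) := by
  unfold kd
  by_cases h1 : j = L.J (L.lev j)
  · rw [if_pos h1]
    exact ⟨fun _ => h1, fun _ => rfl⟩
  · rw [if_neg h1]
    refine ⟨fun h => ?_, fun h => absurd h h1⟩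
    split_ifs at h

theorem kd_of_ne {j : ℕ} (h : L.kd j ≠ 0) : (L.f j < L.F (L.lev j) → L.kd j = 1) ∧
    (¬ L.f j < L.F (L.lev j) → L.kd j = 2) := by
  rw [Ne, kd_zero_iff] at h
  unfold kd
  rw [if_neg h]
  exact ⟨fun h1 => if_pos h1, fun h1 => if_neg h1⟩

theorem kd_J (a : ℕ) : L.kd (L.J a) = 0 := by
  rw [kd_zero_iff, L.lev_J]

/-- an `a`-step -/
theorem step_a {j : ℕ} (h : L.kd j = 0) : j = L.J (L.lev j) ∧ L.f j = L.F (L.lev j) ∧
    L.k j = L.R (L.lev j) ∧ L.lev (j + 1) = L.lev j + 1 ∧ L.f (j + 1) = L.f j ∧ L.k (j + 1) = L.k j := by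
  rw [kd_zero_iff] at h
  have h1 : L.f j = L.F (L.lev j) := by
    have := L.f_J (L.lev j)
    rwa [← h] at this
  have h2 : L.k j = L.R (L.lev j) := by
    have := L.k_J (L.lev j)
    rwa [← h] at this
  have h3 : L.lev (j + 1) = L.lev j + 1 := by
    refine L.lev_eq ?_ fun b hb => ?_
    · have h4 := L.J_lt (Nat.lt_succ_self (L.lev j))
      simp only [Nat.succ_eq_add_one] at h4
      omega
    · have h4 := L.J_mono.monotone (show b ≤ L.lev j by omega)
      omega
  have h4 := L.sum_eq j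
  have h5 := L.sum_eq (j + 1)
  have h6 := L.le_f (j + 1)
  have h7 := L.le_k (j + 1)
  rw [h3, Fm_succ] at h6
  rw [h3, Rm_succ] at h7
  rw [h3] at h5
  refine ⟨h, h1, h2, h3, ?_, ?_⟩ <;> omega

theorem lev_succ_of_ne {j : ℕ} (h : L.kd j ≠ 0) : L.lev (j + 1) = L.lev j := by
  rw [Ne, kd_zero_iff] at h
  have h1 := L.le_J_lev j
  refine L.lev_eq (by omega) fun b hb => ?_
  have := L.J_lt_of_lt hb
  omega

/-- an `f`-step -/
theorem step_f {j : ℕ} (h : L.kd j = 1) : L.f j < L.F (L.lev j) ∧ L.k j = L.Rm (L.lev j) ∧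
    L.lev (j + 1) = L.lev j ∧ L.f (j + 1) = L.f j + 1 ∧ L.k (j + 1) = L.k j := by
  have h0 : L.kd j ≠ 0 := by omega
  have h1 := L.lev_succ_of_ne h0
  have h2 : L.f j < L.F (L.lev j) := by
    by_contra hcon
    have := (L.kd_of_ne h0).2 hcon
    omega
  have h3 : L.k j = L.Rm (L.lev j) := by
    rcases L.f_or j with h4 | ⟨_, h4⟩
    · omega
    · exact h4
  have h4 := L.sum_eq j
  have h5 := L.sum_eq (j + 1)
  have h6 : L.f (j + 1) = min (L.F (L.lev (j + 1))) (j + 1 - L.lev (j + 1) - L.Rm (L.lev (j + 1))) := rfl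
  rw [h1] at h5 h6
  refine ⟨h2, h3, h1, ?_, ?_⟩ <;> omega

/-- a `k`-step -/
theorem step_k {j : ℕ} (h : L.kd j = 2) : L.f j = L.F (L.lev j) ∧ L.k j < L.R (L.lev j) ∧
    L.lev (j + 1) = L.lev j ∧ L.f (j + 1) = L.f j ∧ L.k (j + 1) = L.k j + 1 := by
  have h0 : L.kd j ≠ 0 := by omega
  have h1 := L.lev_succ_of_ne h0
  have h2 : L.f j = L.F (L.lev j) := by
    refine le_antisymm (L.f_le j) ?_
    by_contra hcon
    have := (L.kd_of_ne h0).1 (not_le.1 hcon)
    omega
  rw [Ne, kd_zero_iff] at h0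
  have h4 := L.sum_eq j
  have h5 := L.sum_eq (j + 1)
  have h6 : L.f (j + 1) = min (L.F (L.lev (j + 1))) (j + 1 - L.lev (j + 1) - L.Rm (L.lev (j + 1))) := rfl
  have h7 := L.le_J_lev j
  have h8 := L.beg_le j
  have h9 := L.le_k j
  rw [h1] at h5 h6
  unfold J at h7 h0
  refine ⟨h2, ?_, h1, ?_, ?_⟩ <;> omega

theorem lev_succ_le (j : ℕ) : L.lev j ≤ L.lev (j + 1) ∧ L.lev (j + 1) ≤ L.lev j + 1 := by
  rcases L.kd_cases j with h | h | h
  · have := L.step_a h; omega
  · have := L.step_f h; omega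
  · have := L.step_k h; omega

theorem f_succ_le (j : ℕ) : L.f j ≤ L.f (j + 1) ∧ L.f (j + 1) ≤ L.f j + 1 := by
  rcases L.kd_cases j with h | h | h
  · have := L.step_a h; omega
  · have := L.step_f h; omega
  · have := L.step_k h; omega

theorem k_succ_le (j : ℕ) : L.k j ≤ L.k (j + 1) ∧ L.k (j + 1) ≤ L.k j + 1 := by
  rcases L.kd_cases j with h | h | h
  · have := L.step_a h; omega
  · have := L.step_f h; omega
  · have := L.step_k h; omega

theorem lev_mono : Monotone L.lev := monotone_nat_of_le_succ fun j => (L.lev_succ_le j).1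
theorem f_mono : Monotone L.f := monotone_nat_of_le_succ fun j => (L.f_succ_le j).1
theorem k_mono : Monotone L.k := monotone_nat_of_le_succ fun j => (L.k_succ_le j).1

/-- level of the cell of the cap `b` -/
def Rb (j b : ℕ) : ℕ := min (L.k j + b) (L.f j)

theorem Rb_mono (b : ℕ) : Monotone fun j => L.Rb j b := fun _ _ h =>
  min_le_min (Nat.add_le_add_right (L.k_mono h) b) (L.f_mono h)

theorem Rb_mono_right (j : ℕ) : Monotone (L.Rb j) := fun _ _ h =>
  min_le_min (Nat.add_le_add_left h _) le_rfl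

/-- at most one block per step -/
theorem Rb_succ_le (j b : ℕ) : L.Rb (j + 1) b ≤ L.Rb j b + 1 := by
  have h1 := L.k_succ_le j
  have h2 := L.f_succ_le j
  unfold Rb
  omega

/-- an `a`-step does not move the cell -/
theorem Rb_a {j : ℕ} (h : L.kd j = 0) (b : ℕ) : L.Rb (j + 1) b = L.Rb j b := by
  have := L.step_a h
  unfold Rb
  omega

/-- every step of kind `f` or `k` between two `a`-steps -/
theorem J_succ (a : ℕ) : L.J (a + 1) = L.J a + 1 + (L.F (a + 1) - L.F a) + (L.R (a + 1) - L.R a) := by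
  have h1 := L.F_mono (Nat.le_succ a)
  have h2 := L.R_mono (Nat.le_succ a)
  simp only [Nat.succ_eq_add_one] at h1 h2
  unfold J
  omega

/-- the steps of the level `a` are the `j` in `(J (a - 1), J a]` -/
theorem lev_iff {a j : ℕ} : L.lev j = a ↔ (a = 0 ∨ L.J (a - 1) < j) ∧ j ≤ L.J a := by
  constructor
  · rintro rfl
    refine ⟨?_, L.le_J_lev j⟩
    rcases Nat.eq_zero_or_pos (L.lev j) with h | h
    · exact Or.inl h
    · exact Or.inr (L.J_lt_of_lt (by omega))
  · rintro ⟨h1, h2⟩
    refine L.lev_eq h2 fun b hb => ?_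
    rcases h1 with h1 | h1
    · omega
    · have := L.J_mono.monotone (show b ≤ a - 1 by omega)
      omega

open Finset in
/-- number of steps of a level -/
theorem card_lev {A : ℕ} (N : ℕ) (hN : N ≤ L.J A + 1) :
    ((range N).filter (fun j => L.kd j = 0)).card ≤ A + 1 := by
  have h1 : (range N).filter (fun j => L.kd j = 0) ⊆ (range (A + 1)).image L.J := by
    intro j hj
    rw [mem_filter, mem_range] at hj
    rw [mem_image]
    refine ⟨L.lev j, ?_, ((L.kd_zero_iff j).1 hj.2).symm⟩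
    rw [mem_range]
    have := L.lev_le (a := A) (j := j) (by omega)
    omega
  exact (card_le_card h1).trans (card_image_le.trans (by rw [card_range]))

/-- the length of the path up to the `a`-step of the level `A` -/
theorem J_le {A B : ℕ} (h1 : L.F A ≤ B) : L.J A ≤ A + 2 * B := by
  have h2 := L.R_le A
  unfold J
  omega

/-- kind `k` : the run of the level `a` starts at `R (a - 1)` and ends at `R a` -/
theorem run_k {j : ℕ} (h : L.kd j = 2) : L.Rm (L.lev j) < L.R (L.lev j) := by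
  have h1 := L.step_k h
  have h2 := L.le_k j
  omega

theorem run_f {j : ℕ} (h : L.kd j = 1) : L.Fm (L.lev j) < L.F (L.lev j) := by
  have h1 := L.step_f h
  have h2 := L.le_f j
  omega

end Lv

/-- the second word `R` below the first word (`RI`, `F`), with the jump property -/
structure Wd2 (RI F R : ℕ → ℕ) (s : ℕ) : Prop where
  RI_mono : Monotone RI
  F_mono : Monotone F
  R_mono : Monotone R
  RI_le : ∀ a, RI a ≤ F a
  R_le : ∀ a, R a ≤ RI a
  jump : ∀ a, R a + 3 ≤ R (a + 1) → RI a ≤ R a + 1 + s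

namespace Wd2

variable {RI F R : ℕ → ℕ} {s : ℕ} (h : Wd2 RI F R s)

include h

/-- the path of the second word -/
def lv : Lv := ⟨F, R, h.F_mono, h.R_mono, fun a => (h.R_le a).trans (h.RI_le a)⟩

/-- **a long run of the second word starts at a type (i) step of the first**: a run of length `≥ 3` at the level
`a + 1` starts at `R a ≥ RI a - 1 - s` -/
theorem long {a : ℕ} (h3 : R a + 3 ≤ R (a + 1)) : R a ≤ RI a ∧ RI a ≤ R a + 1 + s :=
  ⟨h.R_le a, h.jump a h3⟩

/-- the same at the level of a step of kind `k` -/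
theorem long_step {j : ℕ} (ha : h.lv.lev j ≠ 0)
    (h3 : R (h.lv.lev j - 1) + 3 ≤ R (h.lv.lev j)) :
    R (h.lv.lev j - 1) ≤ RI (h.lv.lev j - 1) ∧
      RI (h.lv.lev j - 1) ≤ R (h.lv.lev j - 1) + 1 + s := by
  have e : h.lv.lev j - 1 + 1 = h.lv.lev j := by omega
  exact h.long (by rw [e]; exact h3)

end Wd2

end Vale.Agent.P106.U.H823.PathP
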