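import Vale.Agent.P106.U.H833.PathX
import Vale.Agent.P106.U.H449.Ti

/-!
# P106 / U / H823 : the compressed path of a run at one cap

The steps of the path of a run (`S3.Run`, field `Path`) which move neither the time nor the relative thickness `RN x` of the
cap `x` are removed.

* `cN x i = aN i + RN x i - RN x 0` counts the other steps (`Ct`);  `Nc x = cN x n` = their number.
* `idx x j` : last step `i ≤ n` with `cN x i = j` : state `j` of the compressed path; `idx x (Nc x) = n`.
* `idx_mono`, `idx_lt`, `idx_c`, `c_idx`, `same` : `aN`, `RN x` at `idx (j + 1)` = at `idx j + 1`; every step of the time is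
  `idx (cN i)`;  `dig` : the digits `C.a`, `C.R` likewise.
* `sdatC` : **`H118.Sdat` for the compressed path**;  `hF` : it rises within `J + 1` steps (`J` of the record).
* `advC` : gain in the time gives gain of the thickness.
-/

set_option autoImplicit false

namespace Vale.Agent.P106.U.H823.Cmp

open Finset Vale.Agent.P106.U.H833 Vale.Agent.P106.U.S3 Vale.Agent.P106.U.H449
open Vale.Agent.P106.U.H118 (Sdat)

section

variable {Ω : Type} [Fintype Ω] {τ υ : Type} (R : Run Ω τ υ) (x : ℕ)

/-- number of the steps which move the time or the relative thickness -/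
def cN (i : ℕ) : ℕ := aN R i + (RN R x i - RN R x 0)

/-- length of the compressed path -/
def Nc : ℕ := cN R x R.n

/-- state `j` of the compressed path -/
def idx (j : ℕ) : ℕ := TI.ti (cN R x) R.n j

variable {R x} {p : Run.Num} (hP : R.Path p)

include hP

theorem aN_zero : aN R 0 = 0 := by
  unfold aN
  rw [hP.a0, Nat.zero_div]

theorem RN_le {i : ℕ} (hi : i ≤ R.n + p.J) : RN R x 0 ≤ RN R x i := RN_mono hP x (Nat.zero_le i) hi

theorem cN_eq {i : ℕ} (hi : i ≤ R.n + p.J) : cN R x i + RN R x 0 = aN R i + RN R x i := by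
  have := RN_le (x := x) hP hi
  unfold cN
  omega

/-- the step `i` moves exactly one of time, thickness by one block, or nothing -/
theorem step_cases {i : ℕ} (hi : i < R.n + p.J) :
    (R.IsA i ∧ aN R (i + 1) = aN R i + 1 ∧ RN R x (i + 1) = RN R x i) ∨
    (¬ R.IsA i ∧ aN R (i + 1) = aN R i ∧ RN R x (i + 1) = RN R x i + 1) ∨
    (¬ R.IsA i ∧ aN R (i + 1) = aN R i ∧ RN R x (i + 1) = RN R x i) := by
  have hkf := kN_le_fN hP (i := i) (by omega)
  unfold RN
  rcases stepN hP hi with ⟨h1, h2, h3, h4⟩ | ⟨h1, h2, h3, h4⟩ | ⟨h1, h2, h3, h4⟩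
  · exact Or.inl ⟨h4, h1, by rw [h2, h3]⟩
  · rw [h2, h3]
    rcases le_or_gt (fN R i + 1) (kN R i + x) with h6 | h6
    · exact Or.inr (Or.inl ⟨h4, h1, by omega⟩)
    · exact Or.inr (Or.inr ⟨h4, h1, by omega⟩)
  · rw [h2, h3]
    rcases le_or_gt (kN R i + 1 + x) (fN R i) with h6 | h6
    · exact Or.inr (Or.inl ⟨h4, h1, by omega⟩)
    · exact Or.inr (Or.inr ⟨h4, h1, by omega⟩)

theorem ct : TI.Ct (cN R x) R.n where
  z := by
    unfold cN
    rw [aN_zero hP]
    omega
  s := fun i hi => by
    have h1 := cN_eq (x := x) hP (i := i) (by omega)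
    have h2 := cN_eq (x := x) hP (i := i + 1) (by have := hP.J1; omega)
    rcases step_cases (x := x) hP (i := i) (by omega) with ⟨_, h3, h4⟩ | ⟨_, h3, h4⟩ | ⟨_, h3, h4⟩
    · right; omega
    · right; omega
    · left; omega

omit hP in
theorem idx_le (j : ℕ) : idx R x j ≤ R.n := TI.ti_le j

omit hP in
theorem idx_mono : Monotone (idx R x) := TI.ti_monotone

theorem idx_strict {j k : ℕ} (h : j < k) (hj : j < Nc R x) : idx R x j < idx R x k :=
  TI.ti_strict (ct hP) h hj

omit hP in
theorem idx_top : idx R x (Nc R x) = R.n := TI.ti_ge le_rfl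

theorem idx_lt {j : ℕ} (hj : j < Nc R x) : idx R x j < R.n := TI.ti_lt (ct hP) hj

/-- `cN (idx j) = j` -/
theorem c_idx {j : ℕ} (hj : j ≤ Nc R x) : cN R x (idx R x j) = j := TI.ti_f (ct hP) hj

/-- a step which moves is `idx (cN i)` -/
theorem idx_c {i : ℕ} (hi : i < R.n) (h : cN R x (i + 1) = cN R x i + 1) : idx R x (cN R x i) = i :=
  TI.ti_of (ct hP) hi h

/-- a step of the time is a state of the compressed path -/
theorem idx_a {i : ℕ} (hi : i < R.n) (h : R.IsA i) : idx R x (cN R x i) = i := by
  refine idx_c hP hi ?_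
  have h1 := cN_eq (x := x) hP (i := i) (by omega)
  have h2 := cN_eq (x := x) hP (i := i + 1) (by have := hP.J1; omega)
  rcases step_cases (x := x) hP (i := i) (by omega) with ⟨_, h3, h4⟩ | ⟨h3, _⟩ | ⟨h3, _⟩
  · omega
  · exact absurd h h3
  · exact absurd h h3

/-- between two states of the compressed path nothing moves -/
theorem between {i j : ℕ} (hj : j ≤ Nc R x) (hi : i ≤ idx R x j) (hc : cN R x i = j) :
    aN R i = aN R (idx R x j) ∧ RN R x i = RN R x (idx R x j) := by
  have hle := idx_le (R := R) (x := x) j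
  have h1 := cN_eq (x := x) hP (i := i) (by omega)
  have h2 := cN_eq (x := x) hP (i := idx R x j) (by omega)
  rw [c_idx hP hj] at h2
  have h3 := aN_mono hP hi (by omega)
  have h4 := RN_mono hP x hi (by omega)
  omega

theorem c_succ {j : ℕ} (hj : j < Nc R x) : cN R x (idx R x j + 1) = j + 1 := (TI.ti_succ (ct hP) hj).1

/-- **the next state** -/
theorem same {j : ℕ} (hj : j < Nc R x) : aN R (idx R x (j + 1)) = aN R (idx R x j + 1) ∧
    RN R x (idx R x (j + 1)) = RN R x (idx R x j + 1) := by
  have h1 : idx R x j + 1 ≤ idx R x (j + 1) := idx_strict hP (Nat.lt_succ_self j) hj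
  have h2 := between hP (i := idx R x j + 1) (j := j + 1) hj h1 (c_succ hP hj)
  exact ⟨h2.1.symm, h2.2.symm⟩

/-- in digits -/
theorem dig {j : ℕ} (hj : j < Nc R x) : R.C.a (idx R x (j + 1)) = R.C.a (idx R x j + 1) ∧
    R.C.R (idx R x (j + 1)) (R.m * x) = R.C.R (idx R x j + 1) (R.m * x) := by
  have h1 := same hP hj
  have h2 := idx_le (R := R) (x := x) (j + 1)
  have h3 := idx_lt hP hj
  have hJ := hP.J1
  rw [lev_a hP (i := idx R x (j + 1)) (by omega), lev_a hP (i := idx R x j + 1) (by omega),
    lev_R hP x (i := idx R x (j + 1)) (by omega), lev_R hP x (i := idx R x j + 1) (by omega), h1.1, h1.2]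
  exact ⟨rfl, rfl⟩

/-- sum of the levels -/
theorem sum_lev {j : ℕ} (hj : j ≤ Nc R x) : j + RN R x 0 = aN R (idx R x j) + RN R x (idx R x j) := by
  have h1 := idx_le (R := R) (x := x) j
  have h2 := cN_eq (x := x) hP (i := idx R x j) (by omega)
  rw [c_idx hP hj] at h2
  exact h2

/-- the two kinds of steps of the compressed path -/
theorem step2 {j : ℕ} (hj : j < Nc R x) :
    (R.IsA (idx R x j) ∧ aN R (idx R x (j + 1)) = aN R (idx R x j) + 1 ∧
      RN R x (idx R x (j + 1)) = RN R x (idx R x j)) ∨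
    (¬ R.IsA (idx R x j) ∧ aN R (idx R x (j + 1)) = aN R (idx R x j) ∧
      RN R x (idx R x (j + 1)) = RN R x (idx R x j) + 1) := by
  have h0 := idx_lt hP hj
  have h1 := same hP hj
  have h2 := sum_lev hP hj.le
  have h3 := sum_lev hP (j := j + 1) hj
  rw [h1.1, h1.2] at h3 ⊢
  rcases step_cases (x := x) hP (i := idx R x j) (by omega) with h4 | h4 | ⟨_, h5, h6⟩
  · exact Or.inl h4
  · exact Or.inr h4
  · omega

/-- **the data of the summation for the compressed path** -/
theorem sdatC (g : ℕ → Prop) (hg : ∀ j < Nc R x, g j → R.IsA (idx R x j)) :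
    Sdat (Nc R x) g (fun j => aN R (idx R x j)) (fun j => RN R x (idx R x j)) where
  hr := fun j hj => by
    rcases step2 hP hj with ⟨_, _, h⟩ | ⟨h, _, h'⟩
    · exact Or.inl h
    · exact Or.inr ⟨h', fun hgj => h (hg j hj hgj)⟩
  ha := fun j hj => by
    rcases step2 hP hj with ⟨_, h, h'⟩ | ⟨_, h, _⟩
    · exact Or.inr ⟨h, h'⟩
    · exact Or.inl h
  ga := fun j hj hgj => by
    rcases step2 hP hj with ⟨_, h, _⟩ | ⟨h, _⟩
    · exact h
    · exact absurd (hg j hj hgj) h

/-- gain in the time gives gain of the thickness -/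
theorem advC (hx : R.m * x ≤ p.B₁) {j k : ℕ} (hjk : j ≤ k) (ha : aN R (idx R x j) + p.J ≤ aN R (idx R x k)) :
    RN R x (idx R x j) + 1 ≤ RN R x (idx R x k) := by
  have h1 := idx_le (R := R) (x := x) j
  have h2 := idx_le (R := R) (x := x) k
  refine adv hP hx (idx_mono (R := R) (x := x) hjk) h2 ?_
  rw [lev_a hP (i := idx R x j) (by omega), lev_a hP (i := idx R x k) (by omega), Nat.mul_comm p.J,
    ← Nat.mul_add]
  exact Nat.mul_le_mul_left _ ha

/-- **the compressed path rises within `J` steps** -/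
theorem hF (hx : R.m * x ≤ p.B₁) (j : ℕ) (hj : j + p.J ≤ Nc R x) :
    RN R x (idx R x j) + 1 ≤ RN R x (idx R x (j + p.J)) := by
  have h1 := sum_lev (x := x) hP (j := j) (by omega)
  have h2 := sum_lev hP (j := j + p.J) hj
  by_contra hcon
  have h3 := idx_mono (R := R) (x := x) (Nat.le_add_right j p.J)
  have h4 := RN_mono hP x h3 (by have := idx_le (R := R) (x := x) (j + p.J); omega)
  have h5 := advC hP hx (Nat.le_add_right j p.J) (by omega)
  exact hcon h5

/-- number of the states of the time -/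
theorem card_a (N : ℕ) (hN : N ≤ Nc R x) (s : Finset ℕ) (hs : ∀ j ∈ s, j < N ∧ R.IsA (idx R x j)) :
    s.card ≤ aN R (idx R x N) := by
  classical
  have hinj : Set.InjOn (fun j => aN R (idx R x j)) s := by
    have aux : ∀ j k, j ∈ s → k ∈ s → j < k → aN R (idx R x j) < aN R (idx R x k) := by
      intro j k hj hk hlt
      have h1 := hs j hj
      have h2 := hs k hk
      rcases step2 (x := x) hP (j := j) (by omega) with ⟨_, h3, _⟩ | ⟨h3, _⟩
      · have h4 := idx_mono (R := R) (x := x) (show j + 1 ≤ k from hlt)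
        have h5 := aN_mono hP h4 (by have := idx_le (R := R) (x := x) k; omega)
        omega
      · exact absurd h1.2 h3
    intro j hj k hk e
    have e' : aN R (idx R x j) = aN R (idx R x k) := e
    rcases lt_trichotomy j k with h | h | h
    · have := aux j k hj hk h; omega
    · exact h
    · have := aux k j hk hj h; omega
  have h1 : s.image (fun j => aN R (idx R x j)) ⊆ range (aN R (idx R x N)) := by
    intro y hy
    obtain ⟨j, hj, rfl⟩ := mem_image.1 hy
    have h2 := hs j hj
    rw [mem_range]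
    rcases step2 (x := x) hP (j := j) (by omega) with ⟨_, h3, _⟩ | ⟨h3, _⟩
    · have h4 := idx_mono (R := R) (x := x) (show j + 1 ≤ N from h2.1)
      have h5 := aN_mono hP h4 (by have := idx_le (R := R) (x := x) N; omega)
      omega
    · exact absurd h2.2 h3
  have h6 := card_le_card h1
  rwa [card_image_of_injOn hinj, card_range] at h6

/-- the length of the compressed path -/
theorem Nc_le : Nc R x ≤ R.n := (ct hP).le_self le_rfl

end

end Vale.Agent.P106.U.H823.Cmp
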