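import Vale.Agent.P106.U.H823.NumW
import Vale.Agent.P106.U.S3.Props

/-!
# P106 / U / H823 : the path of a run in digits, field `Run.Path` of `S3.Props`

* `PN` : the numbers: functions `F I R` (blocks) with `Nm`, size `m` of a block, start `r0`, offset `o` (`= 2`), stop numbers.
* `L` : the unit-step path (`PathP`) for `F + o`, `R`;  `N` : number of steps, `n` stop;  `li i` : time level of the step `i`
  (truncated at `N = n + J`);  `la, lf, lk, lI` : digits.
* `n_spec`, `n_stop`, `lev_n` : the stop;  `lev_N` : all levels up to `n + J`.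
* `gain_f`, `gain_k` : gains after `J` levels;  `step_gap` : `j - i ≤ (3 + s) (T (lev j) - T (lev i))` from an a-step `i`.
* `path` : **`Run.Path`**.
-/

set_option autoImplicit false

namespace Vale.Agent.P106.U.H823.PathNum

open Finset Vale.Agent.P106.U.H823.NumW Vale.Agent.P106.U.H823.PathP

/-- the numbers of the path -/
structure PN where
  /-- own slope, line, second word, in blocks, as functions of the time level -/
  F : ℕ → ℕ
  I : ℕ → ℕ
  R : ℕ → ℕ
  /-- numbers of word 1 -/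
  A : ℕ
  QF : ℕ
  B₀ : ℕ
  B₁ : ℕ
  M : ℕ
  /-- margin of the second word -/
  s : ℕ
  nm : Nm F I R A QF B₀ B₁ M s
  /-- digits of a block, of the start, offset in blocks, lookahead -/
  m : ℕ
  r0 : ℕ
  o : ℕ
  J : ℕ
  m1 : 1 ≤ m
  /-- stop, in digits -/
  Ad : ℕ
  QK : ℕ

namespace PN

variable (D : PN)

/-- the unit-step path -/
def L : Lv where
  F := fun a => D.F a + D.o
  R := D.R
  F_mono := fun _ _ h => Nat.add_le_add_right (D.nm.Fm h) _
  R_mono := D.nm.Rm
  R_le := fun a => ((D.nm.RI a).trans (D.nm.IF a)).trans (Nat.le_add_right _ _)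

theorem ex_n : ∃ i, D.Ad ≤ D.m * D.L.lev i ∨ D.QK ≤ D.r0 + D.m * D.L.k i := by
  refine ⟨D.L.J D.Ad, Or.inl ?_⟩
  rw [Lv.lev_J]
  exact Nat.le_mul_of_pos_left _ D.m1

/-- **the stop** -/
def n : ℕ := Nat.find D.ex_n

/-- number of steps of the data -/
def N : ℕ := D.n + D.J

/-- truncated index -/
def ix (i : ℕ) : ℕ := min i D.N

/-- time level of the step -/
def li (i : ℕ) : ℕ := D.L.lev (D.ix i)

/-- digits of the time, of the own slope, of the line (second word), of the line (ray side) -/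
def la (i : ℕ) : ℕ := D.m * D.li i
def lf (i : ℕ) : ℕ := D.r0 + D.m * D.L.f (D.ix i)
def lk (i : ℕ) : ℕ := D.r0 + D.m * D.L.k (D.ix i)
def lI (i : ℕ) : ℕ := D.r0 + D.m * (D.o + D.I (D.li i))

theorem ix_mono : Monotone D.ix := fun _ _ h => min_le_min_right _ h

theorem ix_eq {i : ℕ} (h : i ≤ D.N) : D.ix i = i := min_eq_left h

theorem li_mono : Monotone D.li := D.L.lev_mono.comp D.ix_mono

theorem la_mono : Monotone D.la := fun _ _ h => Nat.mul_le_mul_left _ (D.li_mono h)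

theorem lf_mono : Monotone D.lf := fun _ _ h =>
  Nat.add_le_add_left (Nat.mul_le_mul_left _ (D.L.f_mono (D.ix_mono h))) _

theorem lk_mono : Monotone D.lk := fun _ _ h =>
  Nat.add_le_add_left (Nat.mul_le_mul_left _ (D.L.k_mono (D.ix_mono h))) _

theorem lI_mono : Monotone D.lI := fun _ _ h =>
  Nat.add_le_add_left (Nat.mul_le_mul_left _ (Nat.add_le_add_left (D.nm.Im (D.li_mono h)) _)) _

theorem lkf (i : ℕ) : D.lk i ≤ D.lf i :=
  Nat.add_le_add_left (Nat.mul_le_mul_left _ (D.L.k_le_f _)) _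

theorem n_spec : D.Ad ≤ D.m * D.L.lev D.n ∨ D.QK ≤ D.r0 + D.m * D.L.k D.n := Nat.find_spec D.ex_n

theorem n_stop {i : ℕ} (h : i < D.n) : D.m * D.L.lev i < D.Ad ∧ D.r0 + D.m * D.L.k i < D.QK := by
  have := Nat.find_min D.ex_n h
  push Not at this
  exact this

theorem n_le : D.n ≤ D.N := Nat.le_add_right _ _

theorem li_eq {i : ℕ} (h : i ≤ D.N) : D.li i = D.L.lev i := by
  unfold li
  rw [D.ix_eq h]

theorem la_eq {i : ℕ} (h : i ≤ D.N) : D.la i = D.m * D.L.lev i := by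
  unfold la
  rw [D.li_eq h]

theorem lf_eq {i : ℕ} (h : i ≤ D.N) : D.lf i = D.r0 + D.m * D.L.f i := by
  unfold lf
  rw [D.ix_eq h]

theorem lk_eq {i : ℕ} (h : i ≤ D.N) : D.lk i = D.r0 + D.m * D.L.k i := by
  unfold lk
  rw [D.ix_eq h]

theorem lI_eq {i : ℕ} (h : i ≤ D.N) : D.lI i = D.r0 + D.m * (D.o + D.I (D.L.lev i)) := by
  unfold lI
  rw [D.li_eq h]

/-- the level at the stop -/
theorem lev_n : D.m * D.L.lev D.n < D.Ad + D.m := by
  have hm := D.m1
  rcases Nat.eq_zero_or_pos D.n with h | h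
  · rw [h, Lv.lev_zero, Nat.mul_zero]
    omega
  · have h1 := (D.n_stop (i := D.n - 1) (by omega)).1
    have h2 := (D.L.lev_succ_le (D.n - 1)).2
    have h3 : D.n - 1 + 1 = D.n := by omega
    rw [h3] at h2
    have h4 := Nat.mul_le_mul_left D.m h2
    rw [Nat.mul_add, Nat.mul_one] at h4
    omega

theorem lev_add (i k : ℕ) : D.L.lev (i + k) ≤ D.L.lev i + k := by
  induction k with
  | zero => exact le_rfl
  | succ k ih =>
    have := (D.L.lev_succ_le (i + k)).2
    rw [← Nat.add_assoc, ← Nat.add_assoc]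
    omega

/-- all levels -/
theorem lev_N (i : ℕ) : D.la i < D.Ad + D.m * (D.J + 1) := by
  have h1 := D.lev_n
  have h2 := D.lev_add D.n D.J
  have h3 : D.li i ≤ D.L.lev D.N := D.L.lev_mono (min_le_right _ _)
  have h4 : D.la i ≤ D.m * (D.L.lev D.n + D.J) := Nat.mul_le_mul_left _ (h3.trans h2)
  rw [Nat.mul_add] at h4
  rw [Nat.mul_add, Nat.mul_one]
  omega

/-- the steps of the time -/
theorem isA_iff {i : ℕ} (h : i < D.N) : D.la (i + 1) = D.la i + D.m ↔ D.L.kd i = 0 := by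
  have hm := D.m1
  rw [D.la_eq h.le, D.la_eq (i := i + 1) h]
  constructor
  · intro h1
    by_contra h2
    rw [D.L.lev_succ_of_ne h2] at h1
    omega
  · intro h1
    rw [(D.L.step_a h1).2.2.2.1]
    ring

theorem not_isA {i : ℕ} (h : D.N ≤ i) : D.la (i + 1) ≠ D.la i + D.m := by
  have hm := D.m1
  have h1 : D.ix (i + 1) = D.ix i := by unfold ix; omega
  unfold la li
  rw [h1]
  omega

/-- at the steps of the time -/
theorem at_a {i : ℕ} (h : D.L.kd i = 0) : D.L.f i = D.F (D.L.lev i) + D.o ∧ D.L.k i = D.R (D.L.lev i) := by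
  have h1 := D.L.step_a h
  exact ⟨h1.2.1, h1.2.2.1⟩

/-- one block per step -/
theorem step {i : ℕ} (h : i < D.N) :
    (D.la (i + 1) = D.la i + D.m ∧ D.lf (i + 1) = D.lf i ∧ D.lk (i + 1) = D.lk i) ∨
    (D.la (i + 1) = D.la i ∧ D.lf (i + 1) = D.lf i + D.m ∧ D.lk (i + 1) = D.lk i) ∨
    (D.la (i + 1) = D.la i ∧ D.lf (i + 1) = D.lf i ∧ D.lk (i + 1) = D.lk i + D.m) := by
  rw [D.la_eq h.le, D.la_eq (i := i + 1) h, D.lf_eq h.le, D.lf_eq (i := i + 1) h, D.lk_eq h.le,
    D.lk_eq (i := i + 1) h]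
  rcases D.L.kd_cases i with h1 | h1 | h1
  · obtain ⟨_, _, _, h2, h3, h4⟩ := D.L.step_a h1
    rw [h2, h3, h4]
    exact Or.inl ⟨by ring, rfl, rfl⟩
  · obtain ⟨_, _, h2, h3, h4⟩ := D.L.step_f h1
    rw [h2, h3, h4]
    exact Or.inr (Or.inl ⟨rfl, by ring, rfl⟩)
  · obtain ⟨_, _, h2, h3, h4⟩ := D.L.step_k h1
    rw [h2, h3, h4]
    exact Or.inr (Or.inr ⟨rfl, rfl, by ring⟩)

/-- the own slope is complete at most at `QF + o` -/
theorem f_le (i : ℕ) : D.L.f i ≤ D.QF + D.o :=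
  (D.L.f_le i).trans (Nat.add_le_add_right (D.nm.FQ _) _)

/-- **gain of the own slope** -/
theorem gain_f {i j : ℕ} (hJ : A1 D.M + 1 ≤ D.J) (hA : D.L.lev j ≤ D.A) (h : D.L.lev i + D.J ≤ D.L.lev j)
    (hf : D.L.f i < D.QF + D.o) : D.L.f i < D.L.f j := by
  have h1 := D.L.le_f j
  have h2 : D.L.Fm (D.L.lev j) = D.F (D.L.lev j - 1) + D.o := by
    unfold Lv.Fm
    rw [if_neg (by omega)]
    rfl
  rw [h2] at h1
  have h3 : D.L.f i ≤ D.F (D.L.lev i) + D.o := D.L.f_le i
  have h4 := D.nm.Fm (show D.L.lev i + A1 D.M ≤ D.L.lev j - 1 by omega)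
  have h5 := D.nm.FQ (D.L.lev i)
  rcases h5.lt_or_eq with h6 | h6
  · have h7 := D.nm.gF (D.L.lev i) (by omega) h6
    omega
  · have h8 := D.nm.Fm (show D.L.lev i ≤ D.L.lev j - 1 by omega)
    omega

/-- **gain of the second word** -/
theorem gain_k {i j : ℕ} (hJ : A3 D.B₀ D.M D.s + 1 ≤ D.J) (hA : D.L.lev j ≤ D.A)
    (h : D.L.lev i + D.J ≤ D.L.lev j) (hk : D.L.k i + 2 + D.s + D.B₀ ≤ D.QF) : D.L.k i < D.L.k j := by
  have h1 := D.L.le_k j
  have h2 : D.L.Rm (D.L.lev j) = D.R (D.L.lev j - 1) := by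
    unfold Lv.Rm
    rw [if_neg (by omega)]
    rfl
  rw [h2] at h1
  have h3 : D.L.k i ≤ D.R (D.L.lev i) := D.L.k_le i
  rcases h3.lt_or_eq with h6 | h6
  · have h8 := D.nm.Rm (show D.L.lev i ≤ D.L.lev j - 1 by omega)
    omega
  · have h4 := D.nm.Rm (show D.L.lev i + A3 D.B₀ D.M D.s ≤ D.L.lev j - 1 by omega)
    have h7 := D.nm.gapR (a := D.L.lev i) (by omega) (by omega)
    omega

/-- number of steps of word 1 before the step of the time of the level `a` -/
def T (a : ℕ) : ℕ := a + D.F a + D.I a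

/-- **from a step of the time** the number of steps of the path is at most `3 + s` times the number of steps of word 1 -/
theorem step_gap {i j : ℕ} (hi : D.L.kd i = 0) (hij : i ≤ j) :
    (j - i) + (3 + D.s) * D.T (D.L.lev i) ≤ (3 + D.s) * D.T (D.L.lev j) := by
  have h1 := (D.L.step_a hi).1
  have h2 := D.L.le_J_lev j
  set a := D.L.lev i with ha
  set b := D.L.lev j with hb
  have hab : a ≤ b := D.L.lev_mono hij
  have h3 := D.nm.dR hab
  have h4 := D.nm.Fm hab
  have h5 := D.nm.Im hab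
  have h6 : D.L.J a = a + (D.F a + D.o) + D.R a := rfl
  have h7 : D.L.J b = b + (D.F b + D.o) + D.R b := rfl
  obtain ⟨x, hx⟩ : ∃ x, b = a + x := ⟨b - a, by omega⟩
  obtain ⟨y, hy⟩ : ∃ y, D.F b = D.F a + y := ⟨D.F b - D.F a, by omega⟩
  obtain ⟨z, hz⟩ : ∃ z, D.I b = D.I a + z := ⟨D.I b - D.I a, by omega⟩
  have h8 : b - a = x := by omega
  rw [h8, hz] at h3
  have h9 : D.R b ≤ D.R a + (2 + D.s) * x + z := by omega
  have h10 : D.T b = D.T a + (x + y + z) := by
    unfold T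
    omega
  rw [h10]
  have h11 : j - i ≤ x + y + ((2 + D.s) * x + z) := by omega
  have h12 : x + y + ((2 + D.s) * x + z) ≤ (3 + D.s) * (x + y + z) := by
    have e1 : (3 + D.s) * (x + y + z) = (x + y + ((2 + D.s) * x + z)) + ((2 + D.s) * y + (2 + D.s) * z) := by ring
    rw [e1]
    exact Nat.le_add_right _ _
  rw [Nat.mul_add]
  omega

end PN

/-! ### the field `Path` -/

section

variable {Ω : Type} [Fintype Ω] {τ υ : Type}

/-- the run `R` has the levels of `D` -/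
structure Has (D : PN) (R : S3.Run Ω τ υ) (p : S3.Run.Num) : Prop where
  m : R.m = D.m
  r0 : R.r0 = D.r0
  n : R.n = D.n
  a : R.C.a = D.la
  rf : R.C.rf = D.lf
  rk : R.C.rk = D.lk
  rI : R.rI = D.lI
  J : p.J = D.J
  A : p.A = D.Ad
  QK : p.QK = D.QK
  QF : p.QF = D.r0 + D.m * (D.QF + D.o)
  B₁ : p.B₁ = D.m * D.B₁
  /-- numbers -/
  J1 : A1 D.M + 1 ≤ p.J
  J3 : A3 D.B₀ D.M D.s + 1 ≤ p.J
  s : D.o + D.s ≤ p.s
  Aw : p.A + D.m * (p.J + 1) ≤ D.m * D.A
  Ah : p.A + D.m * (p.J + 1) ≤ R.h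
  A' : p.A ≤ p.A' ∧ p.A' ≤ R.h
  QFq : p.QF ≤ R.q
  rK : R.r0 ≤ p.QK ∧ p.QK + p.B₁ ≤ p.QF
  QKr : p.QK + D.m * (2 + D.s + D.B₀) ≤ D.r0 + D.m * D.QF

variable {D : PN} {R : S3.Run Ω τ υ} {p : S3.Run.Num} (H : Has D R p)

include H

theorem Has.N : R.n + p.J = D.N := by rw [H.n, H.J]; rfl

/-- the levels at the stop are inside word 1 -/
theorem Has.levA {j : ℕ} (hj : j ≤ R.n) : D.L.lev j ≤ D.A := by
  have h1 := D.lev_n
  have h2 := H.Aw
  rw [H.A] at h2
  have h3 : D.L.lev j ≤ D.L.lev D.n := D.L.lev_mono (by rw [← H.n]; exact hj)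
  have h4 : D.m * D.L.lev D.n < D.m * D.A := by
    refine h1.trans_le (le_trans ?_ h2)
    rw [Nat.mul_add, Nat.mul_one]
    omega
  have h5 := Nat.lt_of_mul_lt_mul_left h4
  omega

/-- the same for all steps of the data, strictly -/
theorem Has.levN (j : ℕ) : D.li j < D.A := by
  have h1 := D.lev_N j
  have h2 := H.Aw
  rw [H.A, H.J] at h2
  have h3 : D.m * D.li j < D.m * D.A := h1.trans_le h2
  exact Nat.lt_of_mul_lt_mul_left h3

theorem Has.isA {i : ℕ} (hi : i < D.N) : R.IsA i ↔ D.L.kd i = 0 := by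
  unfold S3.Run.IsA
  rw [H.a, H.m]
  exact D.isA_iff hi

theorem Has.lev_of_isA {i : ℕ} (hi : i < D.N) (h : R.IsA i) : D.L.f i = D.F (D.L.lev i) + D.o ∧
    D.L.k i = D.R (D.L.lev i) := D.at_a ((H.isA hi).1 h)

/-- **the field `Path`** -/
theorem path : R.Path p := by
  have hN := H.N
  have hnN : D.n ≤ D.N := D.n_le
  have hm := D.m1
  refine
    { m1 := by rw [H.m]; exact D.m1
      J1 := by have := H.J1; omega
      a0 := ?_
      f0 := ?_
      k0 := ?_
      stp := ?_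
      mI := by rw [H.rI]; exact D.lI_mono
      leI := ?_
      stop := ?_
      fin := ?_
      leF := ?_
      rA := ?_
      rA' := H.A'
      rF := H.QFq
      rK := H.rK
      advF := ?_
      advK := ?_
      diag := ?_
      jump := ?_ }
  · rw [H.a, D.la_eq (Nat.zero_le _), Lv.lev_zero, Nat.mul_zero]
  · rw [H.rf, H.r0, D.lf_eq (Nat.zero_le _), Lv.f_zero, Nat.mul_zero, Nat.add_zero]
  · rw [H.rk, H.r0, D.lk_eq (Nat.zero_le _), Lv.k_zero, Nat.mul_zero, Nat.add_zero]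
  · intro i hi
    rw [H.a, H.rf, H.rk, H.m]
    exact D.step (by rw [← hN]; exact hi)
  · intro i hi hA
    rw [hN] at hi
    obtain ⟨h1, h2⟩ := H.lev_of_isA hi hA
    rw [H.rk, H.rI, H.rf, H.B₁, D.lk_eq hi.le, D.lf_eq hi.le, D.lI_eq hi.le, h1, h2]
    have g1 := D.nm.RI (D.L.lev i)
    have g2 := D.nm.IF (D.L.lev i)
    have g3 := D.nm.FI (D.L.lev i)
    refine ⟨?_, ?_, ?_⟩
    · exact Nat.add_le_add_left (Nat.mul_le_mul_left _ (by omega)) _
    · exact Nat.add_le_add_left (Nat.mul_le_mul_left _ (by omega)) _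
    · rw [Nat.add_assoc, ← Nat.mul_add]
      exact Nat.add_le_add_left (Nat.mul_le_mul_left _ (by omega)) _
  · intro i hi
    rw [H.n] at hi
    rw [H.a, H.rk, H.A, H.QK, D.la_eq (by omega), D.lk_eq (by omega)]
    exact D.n_stop hi
  · rw [H.a, H.rk, H.A, H.QK, H.n, D.la_eq (by omega), D.lk_eq (by omega)]
    exact D.n_spec
  · intro i hi
    rw [hN] at hi
    rw [H.rf, H.QF, D.lf_eq hi]
    exact Nat.add_le_add_left (Nat.mul_le_mul_left _ (D.f_le i)) _
  · rw [H.a, hN]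
    have h1 := D.lev_N D.N
    have h2 := H.Ah
    rw [H.A, H.J] at h2
    omega
  · intro i j hij hj ha
    rw [H.n] at hj
    rw [H.a, H.m, D.la_eq (by omega), D.la_eq (by omega), Nat.mul_comm p.J, ← Nat.mul_add] at ha
    have h1 : D.L.lev i + p.J ≤ D.L.lev j := Nat.le_of_mul_le_mul_left ha hm
    rw [H.rf, H.QF, D.lf_eq (i := i) (by omega), D.lf_eq (i := j) (by omega)]
    rcases (D.f_le i).lt_or_eq with h2 | h2
    · left
      have h3 := D.gain_f (i := i) (j := j) (by have := H.J1; rw [H.J] at this; exact this)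
        (H.levA (by rw [H.n]; exact hj)) (by rw [← H.J]; exact h1) h2
      exact Nat.add_lt_add_left (Nat.mul_lt_mul_of_pos_left h3 hm) _
    · right
      rw [h2]
  · intro i j hij hj ha
    rw [H.n] at hj
    rw [H.a, H.m, D.la_eq (by omega), D.la_eq (by omega), Nat.mul_comm p.J, ← Nat.mul_add] at ha
    have h1 : D.L.lev i + p.J ≤ D.L.lev j := Nat.le_of_mul_le_mul_left ha hm
    have hlt : i < j := by
      rcases hij.lt_or_eq with h | h
      · exact h
      · rw [h] at h1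
        have := H.J1
        omega
    have h4 := (D.n_stop (i := i) (by omega)).2
    have h5 := H.QKr
    rw [H.QK] at h5
    have h6 : D.m * (D.L.k i + (2 + D.s + D.B₀)) < D.m * D.QF := by
      rw [Nat.mul_add]
      omega
    have h7 := Nat.lt_of_mul_lt_mul_left h6
    rw [H.rk, D.lk_eq (i := i) (by omega), D.lk_eq (i := j) (by omega)]
    have h3 := D.gain_k (i := i) (j := j) (by have := H.J3; rw [H.J] at this; exact this)
      (H.levA (by rw [H.n]; exact hj)) (by rw [← H.J]; exact h1) (by omega)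
    exact Nat.add_lt_add_left (Nat.mul_lt_mul_of_pos_left h3 hm) _
  · intro i j hij hj hi' hj' h
    rw [H.n] at hj
    obtain ⟨e1, e2⟩ := H.lev_of_isA (by omega) hi'
    obtain ⟨e3, e4⟩ := H.lev_of_isA (by omega) hj'
    have h0 : D.L.lev i ≤ D.L.lev j := D.L.lev_mono hij
    obtain ⟨k, hk⟩ := Nat.exists_eq_add_of_le h0
    rw [H.rk, H.rI, H.a, H.m, D.lk_eq (by omega), D.la_eq (by omega), D.la_eq (by omega), D.lI_eq (by omega),
      e2] at h
    rw [H.rk, H.a, H.m, D.lk_eq (by omega), D.lk_eq (by omega), D.la_eq (by omega), D.la_eq (by omega), e2, e4]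
    have hd : D.m * D.L.lev j - D.m * D.L.lev i = D.m * k := by
      rw [hk, Nat.mul_add]
      omega
    rw [hd] at h ⊢
    have h1 : D.m * (D.R (D.L.lev i) + k + p.s) ≤ D.m * (D.o + D.I (D.L.lev i)) := by
      have e5 : D.m * (D.R (D.L.lev i) + k + p.s) = D.m * D.R (D.L.lev i) + D.m * k + p.s * D.m := by ring
      omega
    have h2 := Nat.le_of_mul_le_mul_left h1 hm
    have h3 := H.s
    have h4 := D.nm.diag (D.L.lev i) k (by omega)
    rw [hk]
    have h5 := Nat.mul_le_mul_left D.m h4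
    rw [Nat.mul_add, Nat.mul_add, Nat.mul_one] at h5
    omega
  · intro i j hij hj hi' ha h
    rw [H.n] at hj
    obtain ⟨e1, e2⟩ := H.lev_of_isA (by omega) hi'
    rw [H.a, H.m, D.la_eq (by omega), D.la_eq (by omega)] at ha
    have h0 : D.L.lev j = D.L.lev i + 1 := by
      have : D.m * D.L.lev j = D.m * (D.L.lev i + 1) := by rw [ha]; ring
      exact Nat.eq_of_mul_eq_mul_left hm this
    rw [H.rk, H.m, D.lk_eq (by omega), D.lk_eq (by omega), e2] at h
    rw [H.rk, H.rI, H.m, D.lk_eq (by omega), D.lI_eq (by omega), e2]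
    have h1 := D.L.k_le j
    rw [h0] at h1
    have h2 : D.m * (D.R (D.L.lev i) + 3) ≤ D.m * D.L.k j := by
      have e5 : D.m * (D.R (D.L.lev i) + 3) = D.m * D.R (D.L.lev i) + 3 * D.m := by ring
      omega
    have h3 := Nat.le_of_mul_le_mul_left h2 hm
    have h4 := D.nm.jump (D.L.lev i) (h3.trans h1)
    have h5 := H.s
    have h6 : D.m * (D.o + D.I (D.L.lev i)) ≤ D.m * (D.R (D.L.lev i) + (p.s + 1)) :=
      Nat.mul_le_mul_left _ (by omega)
    have e7 : D.m * (D.R (D.L.lev i) + (p.s + 1)) = D.m * D.R (D.L.lev i) + (p.s + 1) * D.m := by ring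
    omega

end

end Vale.Agent.P106.U.H823.PathNum
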