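import Vale.Agent.P106.U.H823.HasN

/-!
# P106 / U / H823 : the path with an ARBITRARY second path `R : ℕ → ℕ` (blocks)

For the closure form of the second word (helper428, helper824: `RC a = a + xi a`, true prefixes): hypotheses `W2 I R s` :
monotone, `R ≤ I`, `diag`, `jump`; then everything of `NumW`, `PathNum`, `PathW`, `HasN` holds.

* `W2` : the hypotheses;  `W2.of_lag` : from the lag form (`R (a+1) = R a + 1` while `R a + D ≤ I a`).
* `ext`, `W2.extend`, `W2.extend_lag` : the same from the properties on the levels up to `A`.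
* `nmG`, `pnG` : `Nm`, `PN`;  `tw_gapG`;  `has_ofG`, `path_ofG`, `lev_ltG`, `la_leG`.
-/

set_option autoImplicit false

namespace Vale.Agent.P106.U.H823.NumG

open Finset Vale.Agent.P127 Vale.Agent.P127.Stk Vale.Agent.P106.U.H449
open Vale.Agent.P106.U.H823.NumW Vale.Agent.P106.U.H823.PathP Vale.Agent.P106.U.H823.PathNum
open Vale.Agent.P106.U.H523.Nums

/-- a second path below the first path `I`, margin `s` -/
structure W2 (I R : ℕ → ℕ) (s : ℕ) : Prop where
  mono : Monotone R
  le : ∀ a, R a ≤ I a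
  diag : ∀ a k, R a + k + s ≤ I a → R a + k ≤ R (a + k) + 1
  jump : ∀ a, R a + 3 ≤ R (a + 1) → I a ≤ R a + 1 + s

/-- **the lag form** : while `R a + D ≤ I a` the second path is exactly diagonal; it never falls -/
theorem W2.of_lag {I R : ℕ → ℕ} {D : ℕ} (hI : Monotone I) (mono : Monotone R) (le : ∀ a, R a ≤ I a)
    (lag : ∀ a, R a + D ≤ I a → R (a + 1) = R a + 1) : W2 I R D where
  mono := mono
  le := le
  diag := fun a k hk => by
    have key : ∀ j ≤ k, R (a + j) = R a + j := by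
      intro j
      induction j with
      | zero => intro _; rfl
      | succ j ih =>
        intro hj
        have h1 := ih (by omega)
        have h2 := hI (Nat.le_add_right a j)
        have h3 := lag (a + j) (by rw [h1]; omega)
        show R (a + j + 1) = R a + (j + 1)
        omega
    have := key k le_rfl
    omega
  jump := fun a h => by
    by_contra hcon
    have h1 := lag a (by omega)
    omega

/-- a larger margin -/
theorem W2.of_le {I R : ℕ → ℕ} {s s' : ℕ} (h : W2 I R s) (hs : s ≤ s') : W2 I R s' where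
  mono := h.mono
  le := h.le
  diag := fun a k hk => h.diag a k (by omega)
  jump := fun a ha => by have := h.jump a ha; omega

/-- continuation above the level `A` -/
def ext (I R : ℕ → ℕ) (A a : ℕ) : ℕ := if a ≤ A then R a else min (R A + (a - A)) (I a)

theorem ext_eq {I R : ℕ → ℕ} {A a : ℕ} (h : a ≤ A) : ext I R A a = R a := if_pos h

/-- **only the levels up to `A`** : the continued path has the properties -/
theorem W2.extend {I R : ℕ → ℕ} {s A : ℕ} (hI : Monotone I) (mono : ∀ a < A, R a ≤ R (a + 1)) (le : ∀ a ≤ A, R a ≤ I a)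
    (diag : ∀ a k, a + k ≤ A → R a + k + s ≤ I a → R a + k ≤ R (a + k) + 1)
    (jump : ∀ a < A, R a + 3 ≤ R (a + 1) → I a ≤ R a + 1 + s) : W2 I (ext I R A) s where
  mono := by
    refine monotone_nat_of_le_succ fun a => ?_
    have h1 := hI (Nat.le_succ a)
    simp only [Nat.succ_eq_add_one] at h1
    unfold ext
    rcases lt_trichotomy a A with h | h | h
    · rw [if_pos h.le, if_pos (show a + 1 ≤ A from h)]
      exact mono a h
    · subst h
      have h2 := le a le_rfl
      rw [if_pos le_rfl, if_neg (by omega)]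
      omega
    · rw [if_neg (by omega), if_neg (by omega)]
      omega
  le := fun a => by
    unfold ext
    split_ifs with h
    · exact le a h
    · exact min_le_right _ _
  diag := fun a k hk => by
    have h1 := hI (Nat.le_add_right a k)
    unfold ext at hk ⊢
    rcases Nat.lt_or_ge A a with h | h
    · rw [if_neg (by omega)] at hk ⊢
      rw [if_neg (by omega)]
      omega
    · rw [if_pos h] at hk ⊢
      rcases Nat.lt_or_ge A (a + k) with h' | h'
      · rw [if_neg (by omega)]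
        have h2 := diag a (A - a) (by omega) (by omega)
        have h3 : a + (A - a) = A := by omega
        rw [h3] at h2
        omega
      · rw [if_pos h']
        exact diag a k h' hk
  jump := fun a ha => by
    have h1 := hI (Nat.le_succ a)
    simp only [Nat.succ_eq_add_one] at h1
    unfold ext at ha ⊢
    rcases lt_trichotomy a A with h | h | h
    · rw [if_pos h.le, if_pos (show a + 1 ≤ A from h)] at ha
      rw [if_pos h.le]
      exact jump a h ha
    · subst h
      rw [if_pos le_rfl, if_neg (by omega)] at ha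
      omega
    · rw [if_neg (by omega), if_neg (by omega)] at ha
      rw [if_neg (by omega)]
      omega

/-- the lag form, only the levels up to `A` -/
theorem W2.extend_lag {I R : ℕ → ℕ} {D A : ℕ} (hI : Monotone I) (mono : ∀ a < A, R a ≤ R (a + 1))
    (le : ∀ a ≤ A, R a ≤ I a) (lag : ∀ a < A, R a + D ≤ I a → R (a + 1) = R a + 1) : W2 I (ext I R A) D := by
  refine W2.extend hI mono le (fun a k hA hk => ?_) (fun a ha h => ?_)
  · have key : ∀ j ≤ k, R (a + j) = R a + j := by
      intro j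
      induction j with
      | zero => intro _; rfl
      | succ j ih =>
        intro hj
        have h1 := ih (by omega)
        have h2 := hI (Nat.le_add_right a j)
        have h3 := lag (a + j) (by omega) (by rw [h1]; omega)
        show R (a + j + 1) = R a + (j + 1)
        omega
    have := key k le_rfl
    omega
  · by_contra hcon
    have h1 := lag a ha (by omega)
    omega

section word

variable {Ω : Type} [Fintype Ω] {δ γ ζ₁ ζ₂ : Type} {e : Rl Ω 2 δ γ ζ₁ ζ₂} {P Q : Law Ω} {p : Pm}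
  {E : List (Lt 2)} {q : ℝ} (hp : p.Good) (he : Rl.Is p e) (h : Cn e P Q p.n E q)
  {R : ℕ → ℕ} {s : ℕ} (w : W2 (Rw p.n E 1) R s)

include hp he h w

/-- **the numbers** -/
theorem nmG : Nm (Rw p.n E 0) (Rw p.n E 1) R p.A p.QF p.B₀ p.B₁ p.M s where
  Fm := h.Rw_mono 0
  Im := h.Rw_mono 1
  Rm := w.mono
  IF := fun a => by
    have h1 := h.lv_inv he (i := tw p.n E a) (Cn.tw_le a)
    show lv p.n E (some 1) (tw p.n E a) ≤ lv p.n E (some 0) (tw p.n E a)
    omega
  RI := w.le
  FI := fun a => (h.lv_inv he (i := tw p.n E a) (Cn.tw_le a)).2.1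
  FQ := fun a => (h.lv_inv he (i := tw p.n E a) (Cn.tw_le a)).1
  gF := fun _ ha hF => gapF hp he h ha hF
  gI := fun _ ha hF => gapI hp he h ha hF
  diag := w.diag
  jump := w.jump

end word

section

variable {Ω : Type} [Fintype Ω] {δ γ ζ₁ ζ₂ : Type} {e : Rl Ω 2 δ γ ζ₁ ζ₂} {P Q : Law Ω} {p : Pm}
  {E : List (Lt 2)} {q : ℝ} (hp : p.Good) (he : Rl.Is p e) (h : Cn e P Q p.n E q)
  {R : ℕ → ℕ} {s : ℕ} (w : W2 (Rw p.n E 1) R s) (m r0 o J : ℕ) (m1 : 1 ≤ m) (Ad QK : ℕ)

/-- **the numbers of the path** -/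
def pnG : PN where
  F := Rw p.n E 0
  I := Rw p.n E 1
  R := R
  A := p.A
  QF := p.QF
  B₀ := p.B₀
  B₁ := p.B₁
  M := p.M
  s := s
  nm := nmG hp he h w
  m := m
  r0 := r0
  o := o
  J := J
  m1 := m1
  Ad := Ad
  QK := QK

theorem T_twG {a : ℕ} (ha : a ≤ p.A) : (pnG hp he h w m r0 o J m1 Ad QK).T a = tw p.n E a := by
  have h0 := none_top hp he h
  have h1 := h.tw_lv (a := a) (by omega)
  have h2 := h.lv_sum (i := tw p.n E a) (Cn.tw_le a)
  show a + lv p.n E (some 0) (tw p.n E a) + lv p.n E (some 1) (tw p.n E a) = _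
  omega

/-- **from a step of the time** : steps of the path, steps of word 1 -/
theorem tw_gapG {i j : ℕ} (hi : (pnG hp he h w m r0 o J m1 Ad QK).L.kd i = 0) (hij : i ≤ j)
    (hj : (pnG hp he h w m r0 o J m1 Ad QK).L.lev j ≤ p.A) :
    (j - i) + (3 + s) * tw p.n E ((pnG hp he h w m r0 o J m1 Ad QK).L.lev i) ≤
      (3 + s) * tw p.n E ((pnG hp he h w m r0 o J m1 Ad QK).L.lev j) := by
  set D := pnG hp he h w m r0 o J m1 Ad QK with hD
  have h1 := D.step_gap hi hij
  rw [show D.T (D.L.lev i) = tw p.n E (D.L.lev i) from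
      T_twG hp he h w m r0 o J m1 Ad QK ((D.L.lev_mono hij).trans hj),
    show D.T (D.L.lev j) = tw p.n E (D.L.lev j) from T_twG hp he h w m r0 o J m1 Ad QK hj] at h1
  exact h1

end

section

variable {Ω : Type} [Fintype Ω] {δ γ ζ₁ ζ₂ : Type} {I : Inp} {K1 : ℝ} {N0 : ℕ} (G : I.Good K1 N0)
  {e : Rl Ω 2 δ γ ζ₁ ζ₂} {P Q : Law Ω} {E : List (Lt 2)} {q : ℝ} (he : Rl.Is I.pm e) (h : Cn e P Q I.pm.n E q)
  {Rr : ℕ → ℕ} {s : ℕ} (w : W2 (Rw I.pm.n E 1) Rr s)

/-- **the numbers of the path**, 523's numbers -/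
noncomputable def pnGI : PN := pnG G.pmG he h w I.m I.rs 2 I.J G.m1 I.num.A I.num.QK

variable {Ω₁ : Type} [Fintype Ω₁] {τ υ : Type} {R : S3.Run Ω₁ τ υ} {p : S3.Run.Num}

/-- **a run with these levels** ; the numbers `p` agree with `I.num` except for the margin `p.s ≥ 2 + s` -/
theorem has_ofG (hN : 4 + s ≤ N0) (hJ1 : A1 I.M + 1 ≤ I.J) (hJ3 : A3 0 I.M s + 1 ≤ I.J) (hs : 2 + s ≤ p.s)
    (n1 : p.A = I.num.A) (n2 : p.A' = I.num.A') (n3 : p.QF = I.num.QF) (n4 : p.QK = I.num.QK)
    (n5 : p.B₁ = I.num.B₁) (n6 : p.J = I.J)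
    (e1 : R.m = I.m) (e2 : R.r0 = I.rs) (e3 : R.n = (pnGI G he h w).n)
    (e4 : R.C.a = (pnGI G he h w).la) (e5 : R.C.rf = (pnGI G he h w).lf)
    (e6 : R.C.rk = (pnGI G he h w).lk) (e7 : R.rI = (pnGI G he h w).lI) (e8 : R.h = I.h) (e9 : R.q = I.q) :
    Has (pnGI G he h w) R p where
  m := e1
  r0 := e2
  n := e3
  a := e4
  rf := e5
  rk := e6
  rI := e7
  J := n6
  A := n1
  QK := n4
  QF := by
    rw [n3]
    show I.m * (I.q / I.m) = I.rs + I.m * (I.QFb + 2)
    have h1 := G.rs2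
    have h2 := G.QFb1
    rw [← h2, Nat.mul_add, Nat.mul_add]
    omega
  B₁ := n5
  J1 := by rw [n6]; exact hJ1
  J3 := by rw [n6]; exact hJ3
  s := hs
  Aw := by
    rw [n1, n6]
    show I.m * I.Ab + I.m * (I.J + 1) ≤ I.m * I.ha
    rw [← Nat.mul_add]
    have h1 := G.Ab1
    have h2 := G.Ab2
    exact Nat.mul_le_mul_left _ (by omega)
  Ah := by
    rw [n1, n6]
    show I.m * I.Ab + I.m * (I.J + 1) ≤ R.h
    rw [← Nat.mul_add, e8]
    have h1 := G.Ab1
    have h2 := G.Ab2
    exact le_trans (Nat.mul_le_mul_left _ (by omega)) G.hah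
  A' := by
    rw [e8, n1, n2]
    exact ⟨G.AA, G.A'h⟩
  QFq := by
    rw [e9, n3]
    exact G.QFq
  rK := by
    rw [e2, n4, n5, n3]
    exact ⟨G.rsK, G.KF⟩
  QKr := by
    rw [n4]
    show I.num.QK + I.m * (2 + s + 0) ≤ I.rs + I.m * I.QFb
    have h0 : I.num.B₁ = I.m * I.B1b := rfl
    have h1 := G.KF
    have h2 : I.num.QF = I.m * (I.q / I.m) := rfl
    have h3 := G.QFb1
    have h4 := G.rs2
    have h5 := G.B1n
    have h6 : I.m * (4 + s) ≤ I.m * I.B1b := Nat.mul_le_mul_left _ (by omega)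
    have h7 : I.m * (2 + s + 0) + 2 * I.m = I.m * (4 + s) := by ring
    rw [h2, ← h3, h0, Nat.mul_add] at h1
    omega

/-- **the field `Path`** -/
theorem path_ofG (hN : 4 + s ≤ N0) (hJ1 : A1 I.M + 1 ≤ I.J) (hJ3 : A3 0 I.M s + 1 ≤ I.J) (hs : 2 + s ≤ p.s)
    (n1 : p.A = I.num.A) (n2 : p.A' = I.num.A') (n3 : p.QF = I.num.QF) (n4 : p.QK = I.num.QK)
    (n5 : p.B₁ = I.num.B₁) (n6 : p.J = I.J)
    (e1 : R.m = I.m) (e2 : R.r0 = I.rs) (e3 : R.n = (pnGI G he h w).n)
    (e4 : R.C.a = (pnGI G he h w).la) (e5 : R.C.rf = (pnGI G he h w).lf)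
    (e6 : R.C.rk = (pnGI G he h w).lk) (e7 : R.rI = (pnGI G he h w).lI) (e8 : R.h = I.h) (e9 : R.q = I.q) :
    R.Path p :=
  path (has_ofG G he h w hN hJ1 hJ3 hs n1 n2 n3 n4 n5 n6 e1 e2 e3 e4 e5 e6 e7 e8 e9)

/-- all time levels of the data -/
theorem lev_ltG (hN : 1 ≤ N0) (i : ℕ) : (pnGI G he h w).li i < I.A'b + 1 ∧ (pnGI G he h w).li i ≤ I.ha := by
  have h1 := (pnGI G he h w).lev_N i
  have h2 : (pnGI G he h w).la i = I.m * (pnGI G he h w).li i := rfl
  have h3 : (pnGI G he h w).Ad = I.m * I.Ab := rfl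
  have h4 : (pnGI G he h w).m = I.m := rfl
  have h5 : (pnGI G he h w).J = I.J := rfl
  rw [h2, h3, h4, h5, ← Nat.mul_add] at h1
  have h6 := Nat.lt_of_mul_lt_mul_left h1
  have h7 := G.Ab1
  have h8 := G.Ab2
  omega

/-- in digits: the levels of the data are at most `A'` and `h` -/
theorem la_leG (hN : 1 ≤ N0) (i : ℕ) : (pnGI G he h w).la i ≤ I.num.A' ∧ (pnGI G he h w).la i ≤ I.h := by
  have h1 := (lev_ltG G he h w hN i).1
  have h2 : (pnGI G he h w).la i ≤ I.m * I.A'b := Nat.mul_le_mul_left _ (by omega)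
  exact ⟨h2, h2.trans G.A'h⟩

end

end Vale.Agent.P106.U.H823.NumG
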