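import Vale.Agent.P106.U.H449.Wrd1
import Vale.Agent.P106.U.H205.Bud

/-!
# P106 / U / H823 : costs of the letters of word 1 (helper449's exploration), under the law of the word

`e : Rl Ω K δ γ ζ₁ ζ₂`, `Cn e P Q n E q` : `Q ≤ P / q` with the word `E`; `Q'` an extension of `Q` along `π`, `Y` a
variable which knows `(Z₁, T i)`.

* `Few P X Z N` : on the support of `P`, `X` has at most `N` values given `Z`.
* `cost_four` : a step of status `4` costs at most `log (1 / thr) + log CD`.
* `cost_forced` : a forced step costs at most `log NF + log CD`.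
* `cost_time` : a step of the time costs at most the entropy of the time block plus `log CD`.
* `card_r`, `card_forced` : number of `r`-steps, of forced steps before the end of the time.
* `sum_r` : sum of the costs of the `r`-steps, `≤ #R log (1 / thr) + 2 (N / (M + 1) + 1) log NF + #R log CD`.
* `sum_all`, `total` : the sum over all steps, and the entropy of the state given a variable which knows `Z₁`.
-/

set_option autoImplicit false

namespace Vale.Agent.P106.U.H823

open Finset Vale.Agent.P127 Vale.Agent.P127.Stk Vale.Agent.P127.U Vale.Agent.P127.U.Nonat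
open Vale.Agent.P127.U.YPat Vale.Agent.P127.U.Act
open Vale.Agent.P106.U.KL Vale.Agent.P106.U.H205 Vale.Agent.P106.U.H449

variable {Ω : Type} [Fintype Ω] {Ω' : Type} [Fintype Ω'] {S T V : Type*}

/-- on the support of `P`, `X` has at most `N` values given `Z` -/
def Few (P : Law Ω) (X : Ω → S) (Z : Ω → T) (N : ℕ) : Prop :=
  ∀ ω, 0 < P.w ω → ∃ F : Finset S, F.card ≤ N ∧ ∀ ω', 0 < P.w ω' → Z ω' = Z ω → X ω' ∈ F

theorem hc_few {P : Law Ω} {Q' : Law Ω'} {π : Ω' → Ω} (hac : ∀ w, 0 < Q'.w w → 0 < P.w (π w))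
    {X : Ω → S} {Z : Ω → T} {N : ℕ} (h : Few P X Z N) {Y : Ω' → V} (hY : Fn Q' (fun w => Z (π w)) Y) :
    hc Q' (fun w => X (π w)) Y ≤ Real.log N := by
  refine hc_le_log Q' _ _ N fun w hw => ?_
  obtain ⟨F, h1, h2⟩ := h (π w) (hac w hw)
  exact ⟨F, h1, fun w' hw' e => h2 (π w') (hac w' hw') (hY w' w hw' hw e)⟩

/-- extension of laws -/
theorem supp_of_pr {Q : Law Ω} {Q' : Law Ω'} {π : Ω' → Ω} (h : ∀ ω, Q'.pr π ω = Q.w ω) :
    ∀ w, 0 < Q'.w w → 0 < Q.w (π w) := fun w hw => by
  rw [← h (π w)]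
  exact Q'.pr_pos π hw

section cost

variable {K : ℕ} {δ γ ζ₁ ζ₂ : Type} {e : Rl Ω K δ γ ζ₁ ζ₂} {P Q : Law Ω} {n : ℕ} {E : List (Lt K)} {q : ℝ}
  (h : Cn e P Q n E q) {Q' : Law Ω'} {π : Ω' → Ω} (hπ : ∀ w, 0 < Q'.w w → 0 < Q.w (π w))

include h hπ

/-- a letter costs its value and the delayed letter -/
theorem hc_succ {i : ℕ} (hi : i < n) {Y : Ω' → V} (hY : Fn Q' (fun w => e.K₁ (e.T P i) (π w)) Y)
    {CD : ℕ} (hD : Few P (e.D (e.T P i)) (e.K₁ (e.T P i)) CD) :
    hc Q' (fun w => e.T P (i + 1) (π w)) Y ≤ hc Q' (fun w => e.val P i (π w)) Y + Real.log CD := by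
  have h1 : hc Q' (fun w => e.T P (i + 1) (π w)) Y ≤
      hc Q' (fun w => (e.val P i (π w), e.D (e.T P i) (π w))) Y := by
    refine hc_mono_left Q' fun a b ha hb e1 => ?_
    simp only [Prod.mk.injEq] at e1
    have e2 := hY a b ha hb e1.2
    have e3 : e.T P i (π a) = e.T P i (π b) := congrArg Prod.snd e2
    show e.T P (i + 1) (π a) = e.T P (i + 1) (π b)
    rw [Rl.T_succ, Rl.T_succ, e3, h.lt_eq (hπ a ha) hi, h.lt_eq (hπ b hb) hi, e1.1.1, e1.1.2]
  rw [hc_pair] at h1
  have h2 : hc Q' (fun w => e.D (e.T P i) (π w)) (fun w => (e.val P i (π w), Y w)) ≤ Real.log CD := by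
    refine hc_few (fun w hw => h.pos (hπ w hw)) hD fun a b ha hb e1 => ?_
    exact hY a b ha hb (congrArg Prod.snd e1)
  linarith

/-- **(a)** a step of status `4` -/
theorem cost_four (ht : 0 < e.thr) {i : ℕ} (hi : i < n) {k : Fin K} (hk : (le' n E i).2 = some k)
    (h4 : (le' n E i).1 k = 4) {Y : Ω' → V} (hY : Fn Q' (fun w => e.K₁ (e.T P i) (π w)) Y)
    {CD : ℕ} (hD : Few P (e.D (e.T P i)) (e.K₁ (e.T P i)) CD) :
    hc Q' (fun w => e.T P (i + 1) (π w)) Y ≤ Real.log (1 / e.thr) + Real.log CD := by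
  have h1 := hc_succ h hπ hi hY hD
  have h2 : hc Q' (fun w => e.val P i (π w)) Y ≤ hc Q' (fun w => e.X k (e.T P i) (π w)) Y := by
    refine hc_mono_left Q' fun a b ha hb e1 => ?_
    simp only [Prod.mk.injEq] at e1
    have e2 := Rl.val_some (e := e) (P := P) ((h.kd_eq (hπ a ha) hi).trans hk)
      ((h.st_eq (hπ a ha) hi k).trans h4)
    have e3 := Rl.val_some (e := e) (P := P) ((h.kd_eq (hπ b hb) hi).trans hk)
      ((h.st_eq (hπ b hb) hi k).trans h4)
    rw [e2, e3] at e1
    exact Option.some.inj e1.1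
  have h3 : hc Q' (fun w => e.X k (e.T P i) (π w)) Y ≤ Real.log (1 / e.thr) := by
    refine hc_cheap P Q' π (fun w hw => h.pos (hπ w hw)) (e.X k (e.T P i)) (e.K₁ (e.T P i)) Y hY
      fun w hw => ?_
    have e2 := (Rl.st_four.1 ((h.st_eq (hπ w hw) hi k).trans h4)).2.2.1
    rw [one_div, Real.log_inv, neg_neg, Real.exp_log ht]
    exact e2
  linarith

/-- **(b)** a forced step -/
theorem cost_forced {i : ℕ} (hi : i < n) {k : Fin K} (hk : (le' n E i).2 = some k)
    (h4 : (le' n E i).1 k ≠ 4) {Y : Ω' → V} (hY : Fn Q' (fun w => e.K₁ (e.T P i) (π w)) Y)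
    {CD NF : ℕ} (hD : Few P (e.D (e.T P i)) (e.K₁ (e.T P i)) CD)
    (hF : Few P (e.F k (e.T P i)) (e.K₁ (e.T P i)) NF) :
    hc Q' (fun w => e.T P (i + 1) (π w)) Y ≤ Real.log NF + Real.log CD := by
  have h1 := hc_succ h hπ hi hY hD
  have h2 : hc Q' (fun w => e.val P i (π w)) Y ≤ hc Q' (fun w => e.F k (e.T P i) (π w)) Y := by
    refine hc_mono_left Q' fun a b ha hb e1 => ?_
    simp only [Prod.mk.injEq] at e1
    have key : ∀ w, 0 < Q'.w w → e.val P i (π w) = e.F k (e.T P i) (π w) := fun w hw =>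
      Rl.val_forced ((h.kd_eq (hπ w hw) hi).trans hk) (by rw [h.st_eq (hπ w hw) hi k]; exact h4)
    rw [key a ha, key b hb]
    exact e1.1
  have h3 := hc_few (fun w hw => h.pos (hπ w hw)) hF hY
  linarith

/-- **(c)** a step of the time -/
theorem cost_time {i : ℕ} (hi : i < n) (hk : (le' n E i).2 = none) {Y : Ω' → V}
    (hY : Fn Q' (fun w => e.K₁ (e.T P i) (π w)) Y)
    {CD : ℕ} (hD : Few P (e.D (e.T P i)) (e.K₁ (e.T P i)) CD) :
    hc Q' (fun w => e.T P (i + 1) (π w)) Y ≤
      hc Q' (fun w => e.Y (e.T P i) (π w)) Y + Real.log CD := by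
  have h1 := hc_succ h hπ hi hY hD
  have h2 : hc Q' (fun w => e.val P i (π w)) Y ≤ hc Q' (fun w => e.Y (e.T P i) (π w)) Y := by
    refine hc_mono_left Q' fun a b ha hb e1 => ?_
    simp only [Prod.mk.injEq] at e1
    have key : ∀ w, 0 < Q'.w w → e.val P i (π w) = e.Y (e.T P i) (π w) := fun w hw =>
      Rl.val_none ((h.kd_eq (hπ w hw) hi).trans hk)
    rw [key a ha, key b hb]
    exact e1.1
  linarith

/-- the time block costs nothing for a variable which knows it -/
theorem cost_time_zero {i : ℕ} (hi : i < n) (hk : (le' n E i).2 = none) {Y : Ω' → V}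
    (hY : Fn Q' (fun w => e.K₁ (e.T P i) (π w)) Y) (hT : Fn Q' (fun w => e.Y (e.T P i) (π w)) Y)
    {CD : ℕ} (hD : Few P (e.D (e.T P i)) (e.K₁ (e.T P i)) CD) :
    hc Q' (fun w => e.T P (i + 1) (π w)) Y ≤ Real.log CD := by
  have h1 := cost_time h hπ hi hk hY hD
  rw [hc_zero Q' hT, zero_add] at h1
  exact h1

end cost

/-! ### Sums, two kinds -/

/-- the bounds of the numbers of values -/
structure Ct {δ γ ζ₁ ζ₂ : Type} (e : Rl Ω 2 δ γ ζ₁ ζ₂) (P : Law Ω) (N CD NF : ℕ) : Prop where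
  thr0 : 0 < e.thr
  thr1 : e.thr ≤ 1
  D : ∀ i < N, Few P (e.D (e.T P i)) (e.K₁ (e.T P i)) CD
  F : ∀ i < N, ∀ k, Few P (e.F k (e.T P i)) (e.K₁ (e.T P i)) NF

section sums

variable {δ γ ζ₁ ζ₂ : Type} {e : Rl Ω 2 δ γ ζ₁ ζ₂} {P Q : Law Ω} {n : ℕ} {E : List (Lt 2)} {q : ℝ}
  (h : Cn e P Q n E q)

include h

/-- number of `r`-steps -/
theorem card_r {N : ℕ} (hN : N ≤ n) :
    ((range N).filter (fun i => (le' n E i).2 ≠ none)).card = lv n E (some 0) N + lv n E (some 1) N := by
  induction N with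
  | zero => rw [h.lv_zero, h.lv_zero]; simp
  | succ N ih =>
    have ih' := ih (by omega)
    rw [h.lv_succ _ (by omega), h.lv_succ _ (by omega), Finset.range_add_one, Finset.filter_insert]
    rcases hk : (le' n E N).2 with _ | κ
    · rw [if_neg (by simp), if_neg (by simp), if_neg (by simp), ih']
      omega
    · rw [if_pos (by simp), Finset.card_insert_of_notMem (by simp), ih']
      fin_cases κ <;> simp <;> omega

/-- number of time steps -/
theorem card_t {N : ℕ} (hN : N ≤ n) :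
    ((range N).filter (fun i => (le' n E i).2 = none)).card = lv n E none N := by
  induction N with
  | zero => rw [h.lv_zero]; simp
  | succ N ih =>
    have ih' := ih (by omega)
    rw [h.lv_succ _ (by omega), Finset.range_add_one, Finset.filter_insert]
    split_ifs with hk
    · rw [Finset.card_insert_of_notMem (by simp), ih']
    · rw [ih', Nat.add_zero]

/-- number of forced steps of status `≠ 4` before the end of the time -/
theorem card_forced {p : Pm} (hI : Rl.Is p e) {N : ℕ} (hN : N ≤ n)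
    (hA : ∀ i < N, lv n E none i < p.A) :
    ((range N).filter (fun i => ∃ k, (le' n E i).2 = some k ∧ (le' n E i).1 k ≠ 4)).card ≤
      2 * (N / (p.M + 1) + 1) := by
  classical
  obtain ⟨ω, hω⟩ := Cn.exists_om (Q := Q)
  have key : ∀ k : Fin 2, ((range N).filter (fun i => (le' n E i).2 = some k ∧
      (le' n E i).1 k ≠ 4)).card ≤ N / (p.M + 1) + 1 := by
    intro k
    refine Rl.card_frc (e := e) (P := P) hI N k ω _ fun i hi => ?_
    rw [Finset.mem_filter, Finset.mem_range] at hi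
    have hin : i < n := lt_of_lt_of_le hi.1 hN
    have h1 : e.kd P i ω = some k := (h.kd_eq hω hin).trans hi.2.1
    refine ⟨hi.1, ?_, ?_⟩
    · rcases Rl.kd_some h1 with h2 | ⟨_, h2⟩
      · rw [hI.frc] at h2
        exact h2
      · rw [h.st_eq hω hin] at h2
        exact absurd h2 hi.2.2
    · rw [h.cnt_eq hω hin.le]
      exact hA i hi.1
  have hsub : (range N).filter (fun i => ∃ k, (le' n E i).2 = some k ∧ (le' n E i).1 k ≠ 4) ⊆
      (range N).filter (fun i => (le' n E i).2 = some 0 ∧ (le' n E i).1 0 ≠ 4) ∪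
      (range N).filter (fun i => (le' n E i).2 = some 1 ∧ (le' n E i).1 1 ≠ 4) := by
    intro i hi
    rw [Finset.mem_filter] at hi
    obtain ⟨hi1, k, hk⟩ := hi
    rw [Finset.mem_union, Finset.mem_filter, Finset.mem_filter]
    fin_cases k
    · exact Or.inl ⟨hi1, hk⟩
    · exact Or.inr ⟨hi1, hk⟩
  have h0 := key 0
  have h1 := key 1
  have h2 := (Finset.card_le_card hsub).trans (Finset.card_union_le _ _)
  omega

variable {Q' : Law Ω'} {π : Ω' → Ω} (hπ : ∀ w, 0 < Q'.w w → 0 < Q.w (π w))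

include hπ

open Classical in
/-- **(d)** sum of the costs of the `r`-steps -/
theorem sum_r {p : Pm} (hI : Rl.Is p e) {N CD NF : ℕ} (hN : N ≤ n) (hc : Ct e P N CD NF)
    (hA : ∀ i < N, lv n E none i < p.A) {v : ℕ → Type*} (Y : (i : ℕ) → Ω' → v i)
    (hY : ∀ i < N, Fn Q' (fun w => e.K₁ (e.T P i) (π w)) (Y i)) :
    ∑ i ∈ (range N).filter (fun i => (le' n E i).2 ≠ none),
        Stk.hc Q' (fun w => e.T P (i + 1) (π w)) (Y i) ≤
      ((lv n E (some 0) N + lv n E (some 1) N : ℕ) : ℝ) * (Real.log (1 / e.thr) + Real.log CD) +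
        (2 * (N / (p.M + 1) + 1) : ℕ) * Real.log NF := by
  have hL : 0 ≤ Real.log (1 / e.thr) := by
    refine Real.log_nonneg ?_
    rw [le_div_iff₀ hc.thr0, one_mul]
    exact hc.thr1
  have hCD : 0 ≤ Real.log CD := Real.log_natCast_nonneg CD
  have hNF : 0 ≤ Real.log NF := Real.log_natCast_nonneg NF
  have h1 : ∀ i ∈ (range N).filter (fun i => (le' n E i).2 ≠ none),
      Stk.hc Q' (fun w => e.T P (i + 1) (π w)) (Y i) ≤ (Real.log (1 / e.thr) + Real.log CD) +
        if (∃ k, (le' n E i).2 = some k ∧ (le' n E i).1 k ≠ 4) then Real.log NF else 0 := by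
    intro i hi
    rw [Finset.mem_filter, Finset.mem_range] at hi
    have hin : i < n := lt_of_lt_of_le hi.1 hN
    obtain ⟨k, hk⟩ := Option.ne_none_iff_exists'.1 hi.2
    by_cases h4 : (le' n E i).1 k = 4
    · have h5 := cost_four h hπ hc.thr0 hin hk h4 (hY i hi.1) (hc.D i hi.1)
      split_ifs <;> linarith
    · have h5 := cost_forced h hπ hin hk h4 (hY i hi.1) (hc.D i hi.1) (hc.F i hi.1 k)
      rw [if_pos ⟨k, hk, h4⟩]
      linarith
  refine (Finset.sum_le_sum h1).trans ?_
  rw [Finset.sum_add_distrib, Finset.sum_const, nsmul_eq_mul, card_r h hN, ← Finset.sum_filter,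
    Finset.sum_const, nsmul_eq_mul]
  refine add_le_add le_rfl (mul_le_mul_of_nonneg_right ?_ hNF)
  have h2 := card_forced h hI hN hA
  have h3 : (((range N).filter (fun i => (le' n E i).2 ≠ none)).filter
      (fun i => ∃ k, (le' n E i).2 = some k ∧ (le' n E i).1 k ≠ 4)).card ≤
      ((range N).filter (fun i => ∃ k, (le' n E i).2 = some k ∧ (le' n E i).1 k ≠ 4)).card := by
    refine Finset.card_le_card fun i hi => ?_
    rw [Finset.mem_filter, Finset.mem_filter] at hi
    rw [Finset.mem_filter]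
    exact ⟨hi.1.1, hi.2⟩
  exact_mod_cast h3.trans h2

open Classical in
/-- the sum over all steps; `τ i` bounds the cost of the time block -/
theorem sum_all {p : Pm} (hI : Rl.Is p e) {N CD NF : ℕ} (hN : N ≤ n) (hc : Ct e P N CD NF)
    (hA : ∀ i < N, lv n E none i < p.A) {v : ℕ → Type*} (Y : (i : ℕ) → Ω' → v i)
    (hY : ∀ i < N, Fn Q' (fun w => e.K₁ (e.T P i) (π w)) (Y i)) :
    ∑ i ∈ range N, Stk.hc Q' (fun w => e.T P (i + 1) (π w)) (Y i) ≤
      ((lv n E (some 0) N + lv n E (some 1) N : ℕ) : ℝ) * Real.log (1 / e.thr) +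
        (2 * (N / (p.M + 1) + 1) : ℕ) * Real.log NF + N * Real.log CD +
      ∑ i ∈ (range N).filter (fun i => (le' n E i).2 = none),
        Stk.hc Q' (fun w => e.Y (e.T P i) (π w)) (Y i) := by
  have h1 := sum_r h hπ hI hN hc hA Y hY
  have h2 : ∑ i ∈ (range N).filter (fun i => (le' n E i).2 = none),
      Stk.hc Q' (fun w => e.T P (i + 1) (π w)) (Y i) ≤
      ∑ i ∈ (range N).filter (fun i => (le' n E i).2 = none),
        Stk.hc Q' (fun w => e.Y (e.T P i) (π w)) (Y i) + lv n E none N * Real.log CD := by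
    rw [← card_t h hN, ← nsmul_eq_mul, ← Finset.sum_const, ← Finset.sum_add_distrib]
    refine Finset.sum_le_sum fun i hi => ?_
    rw [Finset.mem_filter, Finset.mem_range] at hi
    exact cost_time h hπ (lt_of_lt_of_le hi.1 hN) hi.2 (hY i hi.1) (hc.D i hi.1)
  have h3 := Finset.sum_filter_add_sum_filter_not (range N) (fun i => (le' n E i).2 = none)
    (fun i => Stk.hc Q' (fun w => e.T P (i + 1) (π w)) (Y i))
  have h4 : (lv n E none N : ℝ) + ((lv n E (some 0) N + lv n E (some 1) N : ℕ) : ℝ) = N := by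
    rw [← card_t h hN, ← card_r h hN]
    have h5 := Finset.card_filter_add_card_filter_not (s := range N) (fun i => (le' n E i).2 = none)
    rw [Finset.card_range] at h5
    exact_mod_cast h5
  have h6 : (N : ℝ) * Real.log CD = lv n E none N * Real.log CD +
      ((lv n E (some 0) N + lv n E (some 1) N : ℕ) : ℝ) * Real.log CD := by
    rw [← h4]
    ring
  rw [← h3, h6]
  have h7 : ((lv n E (some 0) N + lv n E (some 1) N : ℕ) : ℝ) * (Real.log (1 / e.thr) + Real.log CD) =
      ((lv n E (some 0) N + lv n E (some 1) N : ℕ) : ℝ) * Real.log (1 / e.thr) +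
      ((lv n E (some 0) N + lv n E (some 1) N : ℕ) : ℝ) * Real.log CD := by ring
  rw [h7] at h1
  linarith

open Classical in
/-- **total** : entropy of the state given a variable which knows `Z₁`; the time blocks separately -/
theorem total {p : Pm} (hI : Rl.Is p e) {N CD NF : ℕ} (hN : N ≤ n) (hc : Ct e P N CD NF)
    (hA : ∀ i < N, lv n E none i < p.A) (Z : Ω' → V) (hZ : Fn Q' (fun w => e.Z₁ (π w)) Z) :
    Stk.hc Q' (fun w => e.T P N (π w)) Z ≤
      ((lv n E (some 0) N + lv n E (some 1) N : ℕ) : ℝ) * Real.log (1 / e.thr) +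
        (2 * (N / (p.M + 1) + 1) : ℕ) * Real.log NF + N * Real.log CD +
      ∑ i ∈ (range N).filter (fun i => (le' n E i).2 = none),
        Stk.hc Q' (fun w => e.Y (e.T P i) (π w)) (fun w => (Z w, e.T P i (π w))) := by
  have h1 := chain (Q := Q') (n := N) (T := fun i w => e.T P i (π w)) (X := fun i w => e.T P (i + 1) (π w))
    (fun i _ a b _ _ e1 => congrArg Prod.snd e1) Z
  have h2 : Stk.hc Q' (fun w => e.T P 0 (π w)) Z = 0 := hc_zero Q' fun _ _ _ _ _ => rfl
  have h3 := sum_all h hπ hI hN hc hA (fun i w => (Z w, e.T P i (π w))) fun i _ a b ha hb e1 => by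
    simp only [Prod.mk.injEq] at e1
    exact Prod.ext (hZ a b ha hb e1.1) e1.2
  rw [h2, zero_add] at h1
  exact h1.trans h3

omit hπ in
/-- the number of `r`-steps is at most `N` -/
theorem lv_le {N : ℕ} (hN : N ≤ n) : lv n E (some 0) N + lv n E (some 1) N ≤ N := by
  rw [← card_r h hN]
  exact (Finset.card_filter_le _ _).trans (by rw [Finset.card_range])

end sums

end Vale.Agent.P106.U.H823
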