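import Vale.Agent.P106.U.H823.Cost1

/-!
# P106 / U / H823 : costs of the letters of word 1, number of values of the delayed letter DEPENDING ON THE STEP

As `Cost1`, but the number `CD i` of values of the delayed letter depends on the step, and all numbers of values are
under the law `Q` of the word (not under `P`).  The numbers of helper449's `Del.lean` : `99` at a good step, `2 ^ (3 m +
12)` at a bad one (`cd`), `2 ^ (m + 6)` for a forced kind.

* `Few.mono` : from `P` to `Q`;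
* `hc_succ'`, `cost_four'`, `cost_forced'`, `cost_time'`, `cost_time_zero'`;
* `Cv e P Q n E N CD NF` : the bounds of the numbers of values;
* `sum_r'`, `sum_all'`, `total'`;
* `sum_cd`, `sum_del`, `total_del` : with the numbers.
-/

set_option autoImplicit false

namespace Vale.Agent.P106.U.H823

open Finset Vale.Agent.P127 Vale.Agent.P127.Stk Vale.Agent.P127.U Vale.Agent.P127.U.Nonat
open Vale.Agent.P127.U.YPat Vale.Agent.P127.U.Act
open Vale.Agent.P106.U.KL Vale.Agent.P106.U.H205 Vale.Agent.P106.U.H449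

variable {Ω : Type} [Fintype Ω] {Ω' : Type} [Fintype Ω'] {S T V : Type*}

theorem Few.mono {P Q : Law Ω} {X : Ω → S} {Z : Ω → T} {N N' : ℕ} (h : Few P X Z N)
    (hac : ∀ ω, 0 < Q.w ω → 0 < P.w ω) (hN : N ≤ N') : Few Q X Z N' := fun ω hω => by
  obtain ⟨F, h1, h2⟩ := h ω (hac ω hω)
  exact ⟨F, h1.trans hN, fun ω' hω' e => h2 ω' (hac ω' hω') e⟩

section cost

variable {K : ℕ} {δ γ ζ₁ ζ₂ : Type} {e : Rl Ω K δ γ ζ₁ ζ₂} {P Q : Law Ω} {n : ℕ} {E : List (Lt K)} {q : ℝ}
  (h : Cn e P Q n E q) {Q' : Law Ω'} {π : Ω' → Ω} (hπ : ∀ w, 0 < Q'.w w → 0 < Q.w (π w))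

include h hπ

/-- a letter costs its value and the delayed letter -/
theorem hc_succ' {i : ℕ} (hi : i < n) {Y : Ω' → V} (hY : Fn Q' (fun w => e.K₁ (e.T P i) (π w)) Y)
    {CD : ℕ} (hD : Few Q (e.D (e.T P i)) (e.K₁ (e.T P i)) CD) :
    hc Q' (fun w => e.T P (i + 1) (π w)) Y ≤ hc Q' (fun w => e.val P i (π w)) Y + Real.log CD := by
  have h1 : hc Q' (fun w => e.T P (i + 1) (π w)) Y ≤
      hc Q' (fun w => (e.val P i (π w), e.D (e.T P i) (π w))) Y := by
    refine hc_mono_left Q' fun a b ha hb e1 => ?_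
    simp only [Prod.mk.injEq] at e1
    have e2 := hY a b ha hb e1.2
    have e3 : e.T P i (π a) = e.T P i (π b) := congrArg Prod.snd e2
    show e.T P (i + 1) (π a) = e.T P (i + 1) (π b)
    rw [Rl.T_succ, Rl.T_succ, e3, h.lt_eq (hπ a ha) hi, h.lt_eq (hπ b hb) hi, e1.1.1, e1.1.2]
  rw [hc_pair] at h1
  have h2 : hc Q' (fun w => e.D (e.T P i) (π w)) (fun w => (e.val P i (π w), Y w)) ≤ Real.log CD := by
    refine hc_few hπ hD fun a b ha hb e1 => ?_
    exact hY a b ha hb (congrArg Prod.snd e1)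
  linarith

/-- **(a)** a step of status `4` -/
theorem cost_four' (ht : 0 < e.thr) {i : ℕ} (hi : i < n) {k : Fin K} (hk : (le' n E i).2 = some k)
    (h4 : (le' n E i).1 k = 4) {Y : Ω' → V} (hY : Fn Q' (fun w => e.K₁ (e.T P i) (π w)) Y)
    {CD : ℕ} (hD : Few Q (e.D (e.T P i)) (e.K₁ (e.T P i)) CD) :
    hc Q' (fun w => e.T P (i + 1) (π w)) Y ≤ Real.log (1 / e.thr) + Real.log CD := by
  have h1 := hc_succ' h hπ hi hY hD
  have h2 : hc Q' (fun w => e.val P i (π w)) Y ≤ hc Q' (fun w => e.X k (e.T P i) (π w)) Y := by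
    refine hc_mono_left Q' fun a b ha hb e1 => ?_
    simp only [Prod.mk.injEq] at e1
    have e2 := Rl.val_some (e := e) (P := P) ((h.kd_eq (hπ a ha) hi).trans hk)
      ((h.st_eq (hπ a ha) hi k).trans h4)
    have e3 := Rl.val_some (e := e) (P := P) ((h.kd_eq (hπ b hb) hi).trans hk)
      ((h.st_eq (hπ b hb) hi k).trans h4)
    rw [e2, e3] at e1
    exact Option.some.inj e1.1
  have h3 : hc Q' (fun w => e.X k (e.T P i) (π w)) Y ≤ Real.log (1 / e.thr) := by
    refine hc_cheap P Q' π (fun w hw => h.pos (hπ w hw)) (e.X k (e.T P i)) (e.K₁ (e.T P i)) Y hY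
      fun w hw => ?_
    have e2 := (Rl.st_four.1 ((h.st_eq (hπ w hw) hi k).trans h4)).2.2.1
    rw [one_div, Real.log_inv, neg_neg, Real.exp_log ht]
    exact e2
  linarith

/-- **(b)** a forced step -/
theorem cost_forced' {i : ℕ} (hi : i < n) {k : Fin K} (hk : (le' n E i).2 = some k)
    (h4 : (le' n E i).1 k ≠ 4) {Y : Ω' → V} (hY : Fn Q' (fun w => e.K₁ (e.T P i) (π w)) Y)
    {CD NF : ℕ} (hD : Few Q (e.D (e.T P i)) (e.K₁ (e.T P i)) CD)
    (hF : Few Q (e.F k (e.T P i)) (e.K₁ (e.T P i)) NF) :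
    hc Q' (fun w => e.T P (i + 1) (π w)) Y ≤ Real.log NF + Real.log CD := by
  have h1 := hc_succ' h hπ hi hY hD
  have h2 : hc Q' (fun w => e.val P i (π w)) Y ≤ hc Q' (fun w => e.F k (e.T P i) (π w)) Y := by
    refine hc_mono_left Q' fun a b ha hb e1 => ?_
    simp only [Prod.mk.injEq] at e1
    have key : ∀ w, 0 < Q'.w w → e.val P i (π w) = e.F k (e.T P i) (π w) := fun w hw =>
      Rl.val_forced ((h.kd_eq (hπ w hw) hi).trans hk) (by rw [h.st_eq (hπ w hw) hi k]; exact h4)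
    rw [key a ha, key b hb]
    exact e1.1
  have h3 := hc_few hπ hF hY
  linarith

/-- **(c)** a step of the time -/
theorem cost_time' {i : ℕ} (hi : i < n) (hk : (le' n E i).2 = none) {Y : Ω' → V}
    (hY : Fn Q' (fun w => e.K₁ (e.T P i) (π w)) Y)
    {CD : ℕ} (hD : Few Q (e.D (e.T P i)) (e.K₁ (e.T P i)) CD) :
    hc Q' (fun w => e.T P (i + 1) (π w)) Y ≤
      hc Q' (fun w => e.Y (e.T P i) (π w)) Y + Real.log CD := by
  have h1 := hc_succ' h hπ hi hY hD
  have h2 : hc Q' (fun w => e.val P i (π w)) Y ≤ hc Q' (fun w => e.Y (e.T P i) (π w)) Y := by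
    refine hc_mono_left Q' fun a b ha hb e1 => ?_
    simp only [Prod.mk.injEq] at e1
    have key : ∀ w, 0 < Q'.w w → e.val P i (π w) = e.Y (e.T P i) (π w) := fun w hw =>
      Rl.val_none ((h.kd_eq (hπ w hw) hi).trans hk)
    rw [key a ha, key b hb]
    exact e1.1
  linarith

/-- the time block costs nothing for a variable which knows it -/
theorem cost_time_zero' {i : ℕ} (hi : i < n) (hk : (le' n E i).2 = none) {Y : Ω' → V}
    (hY : Fn Q' (fun w => e.K₁ (e.T P i) (π w)) Y) (hT : Fn Q' (fun w => e.Y (e.T P i) (π w)) Y)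
    {CD : ℕ} (hD : Few Q (e.D (e.T P i)) (e.K₁ (e.T P i)) CD) :
    hc Q' (fun w => e.T P (i + 1) (π w)) Y ≤ Real.log CD := by
  have h1 := cost_time' h hπ hi hk hY hD
  rw [hc_zero Q' hT, zero_add] at h1
  exact h1

end cost

/-! ### Sums, two kinds -/

/-- the bounds of the numbers of values, under the law `Q` of the word `E` (length `n`), for the first `N` steps;
`NF` only at the forced steps -/
structure Cv {δ γ ζ₁ ζ₂ : Type} (e : Rl Ω 2 δ γ ζ₁ ζ₂) (P Q : Law Ω) (n : ℕ) (E : List (Lt 2)) (N : ℕ)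
    (CD : ℕ → ℕ) (NF : ℕ) : Prop where
  thr0 : 0 < e.thr
  thr1 : e.thr ≤ 1
  D : ∀ i < N, Few Q (e.D (e.T P i)) (e.K₁ (e.T P i)) (CD i)
  F : ∀ i < N, ∀ k, (le' n E i).2 = some k → (le' n E i).1 k ≠ 4 →
    Few Q (e.F k (e.T P i)) (e.K₁ (e.T P i)) NF

section sums

variable {δ γ ζ₁ ζ₂ : Type} {e : Rl Ω 2 δ γ ζ₁ ζ₂} {P Q : Law Ω} {n : ℕ} {E : List (Lt 2)} {q : ℝ}
  (h : Cn e P Q n E q)

include h

/-- the former bounds give the new ones -/
theorem Ct.cv {N CD NF : ℕ} (hc : Ct e P N CD NF) : Cv e P Q n E N (fun _ => CD) NF :=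
  ⟨hc.thr0, hc.thr1, fun i hi => (hc.D i hi).mono (fun _ hω => h.pos hω) le_rfl,
    fun i hi k _ _ => (hc.F i hi k).mono (fun _ hω => h.pos hω) le_rfl⟩

variable {Q' : Law Ω'} {π : Ω' → Ω} (hπ : ∀ w, 0 < Q'.w w → 0 < Q.w (π w))

include hπ

open Classical in
/-- **(d)** sum of the costs of the `r`-steps -/
theorem sum_r' {p : Pm} (hI : Rl.Is p e) {N NF : ℕ} {CD : ℕ → ℕ} (hN : N ≤ n) (hc : Cv e P Q n E N CD NF)
    (hA : ∀ i < N, lv n E none i < p.A) {v : ℕ → Type*} (Y : (i : ℕ) → Ω' → v i)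
    (hY : ∀ i < N, Fn Q' (fun w => e.K₁ (e.T P i) (π w)) (Y i)) :
    ∑ i ∈ (range N).filter (fun i => (le' n E i).2 ≠ none),
        Stk.hc Q' (fun w => e.T P (i + 1) (π w)) (Y i) ≤
      ((lv n E (some 0) N + lv n E (some 1) N : ℕ) : ℝ) * Real.log (1 / e.thr) +
        (2 * (N / (p.M + 1) + 1) : ℕ) * Real.log NF +
        ∑ i ∈ (range N).filter (fun i => (le' n E i).2 ≠ none), Real.log (CD i) := by
  have hL : 0 ≤ Real.log (1 / e.thr) := by
    refine Real.log_nonneg ?_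
    rw [le_div_iff₀ hc.thr0, one_mul]
    exact hc.thr1
  have hNF : 0 ≤ Real.log NF := Real.log_natCast_nonneg NF
  have h1 : ∀ i ∈ (range N).filter (fun i => (le' n E i).2 ≠ none),
      Stk.hc Q' (fun w => e.T P (i + 1) (π w)) (Y i) ≤ (Real.log (1 / e.thr) +
        (if (∃ k, (le' n E i).2 = some k ∧ (le' n E i).1 k ≠ 4) then Real.log NF else 0)) +
        Real.log (CD i) := by
    intro i hi
    rw [Finset.mem_filter, Finset.mem_range] at hi
    have hin : i < n := lt_of_lt_of_le hi.1 hN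
    obtain ⟨k, hk⟩ := Option.ne_none_iff_exists'.1 hi.2
    by_cases h4 : (le' n E i).1 k = 4
    · have h5 := cost_four' h hπ hc.thr0 hin hk h4 (hY i hi.1) (hc.D i hi.1)
      split_ifs <;> linarith
    · have h5 := cost_forced' h hπ hin hk h4 (hY i hi.1) (hc.D i hi.1) (hc.F i hi.1 k hk h4)
      rw [if_pos ⟨k, hk, h4⟩]
      linarith
  refine (Finset.sum_le_sum h1).trans ?_
  rw [Finset.sum_add_distrib, Finset.sum_add_distrib, Finset.sum_const, nsmul_eq_mul, card_r h hN,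
    ← Finset.sum_filter, Finset.sum_const, nsmul_eq_mul]
  refine add_le_add (add_le_add le_rfl (mul_le_mul_of_nonneg_right ?_ hNF)) le_rfl
  have h2 := card_forced h hI hN hA
  have h3 : (((range N).filter (fun i => (le' n E i).2 ≠ none)).filter
      (fun i => ∃ k, (le' n E i).2 = some k ∧ (le' n E i).1 k ≠ 4)).card ≤
      ((range N).filter (fun i => ∃ k, (le' n E i).2 = some k ∧ (le' n E i).1 k ≠ 4)).card := by
    refine Finset.card_le_card fun i hi => ?_
    rw [Finset.mem_filter, Finset.mem_filter] at hi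
    rw [Finset.mem_filter]
    exact ⟨hi.1.1, hi.2⟩
  exact_mod_cast h3.trans h2

open Classical in
/-- the sum over all steps -/
theorem sum_all' {p : Pm} (hI : Rl.Is p e) {N NF : ℕ} {CD : ℕ → ℕ} (hN : N ≤ n) (hc : Cv e P Q n E N CD NF)
    (hA : ∀ i < N, lv n E none i < p.A) {v : ℕ → Type*} (Y : (i : ℕ) → Ω' → v i)
    (hY : ∀ i < N, Fn Q' (fun w => e.K₁ (e.T P i) (π w)) (Y i)) :
    ∑ i ∈ range N, Stk.hc Q' (fun w => e.T P (i + 1) (π w)) (Y i) ≤
      ((lv n E (some 0) N + lv n E (some 1) N : ℕ) : ℝ) * Real.log (1 / e.thr) +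
        (2 * (N / (p.M + 1) + 1) : ℕ) * Real.log NF + ∑ i ∈ range N, Real.log (CD i) +
      ∑ i ∈ (range N).filter (fun i => (le' n E i).2 = none),
        Stk.hc Q' (fun w => e.Y (e.T P i) (π w)) (Y i) := by
  have h1 := sum_r' h hπ hI hN hc hA Y hY
  have h2 : ∑ i ∈ (range N).filter (fun i => (le' n E i).2 = none),
      Stk.hc Q' (fun w => e.T P (i + 1) (π w)) (Y i) ≤
      ∑ i ∈ (range N).filter (fun i => (le' n E i).2 = none),
        Stk.hc Q' (fun w => e.Y (e.T P i) (π w)) (Y i) +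
      ∑ i ∈ (range N).filter (fun i => (le' n E i).2 = none), Real.log (CD i) := by
    rw [← Finset.sum_add_distrib]
    refine Finset.sum_le_sum fun i hi => ?_
    rw [Finset.mem_filter, Finset.mem_range] at hi
    exact cost_time' h hπ (lt_of_lt_of_le hi.1 hN) hi.2 (hY i hi.1) (hc.D i hi.1)
  have h3 := Finset.sum_filter_add_sum_filter_not (range N) (fun i => (le' n E i).2 = none)
    (fun i => Stk.hc Q' (fun w => e.T P (i + 1) (π w)) (Y i))
  have h4 := Finset.sum_filter_add_sum_filter_not (range N) (fun i => (le' n E i).2 = none)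
    (fun i => Real.log (CD i))
  rw [← h3, ← h4]
  linarith

open Classical in
/-- **total** : entropy of the state given a variable which knows `Z₁`; the time blocks separately -/
theorem total' {p : Pm} (hI : Rl.Is p e) {N NF : ℕ} {CD : ℕ → ℕ} (hN : N ≤ n) (hc : Cv e P Q n E N CD NF)
    (hA : ∀ i < N, lv n E none i < p.A) (Z : Ω' → V) (hZ : Fn Q' (fun w => e.Z₁ (π w)) Z) :
    Stk.hc Q' (fun w => e.T P N (π w)) Z ≤
      ((lv n E (some 0) N + lv n E (some 1) N : ℕ) : ℝ) * Real.log (1 / e.thr) +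
        (2 * (N / (p.M + 1) + 1) : ℕ) * Real.log NF + ∑ i ∈ range N, Real.log (CD i) +
      ∑ i ∈ (range N).filter (fun i => (le' n E i).2 = none),
        Stk.hc Q' (fun w => e.Y (e.T P i) (π w)) (fun w => (Z w, e.T P i (π w))) := by
  have h1 := chain (Q := Q') (n := N) (T := fun i w => e.T P i (π w)) (X := fun i w => e.T P (i + 1) (π w))
    (fun i _ a b _ _ e1 => congrArg Prod.snd e1) Z
  have h2 : Stk.hc Q' (fun w => e.T P 0 (π w)) Z = 0 := hc_zero Q' fun _ _ _ _ _ => rfl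
  have h3 := sum_all' h hπ hI hN hc hA (fun i w => (Z w, e.T P i (π w))) fun i _ a b ha hb e1 => by
    simp only [Prod.mk.injEq] at e1
    exact Prod.ext (hZ a b ha hb e1.1) e1.2
  rw [h2, zero_add] at h1
  exact h1.trans h3

end sums

/-! ### The numbers of the delayed letter -/

/-- number of values of the delayed letter : `99` at a good step, `2 ^ (3 m + 12)` at a bad one -/
def cd (m : ℕ) (bad : Finset ℕ) (i : ℕ) : ℕ := if i ∈ bad then 2 ^ (3 * m + 12) else 99

theorem log_cd (m : ℕ) (bad : Finset ℕ) (i : ℕ) :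
    Real.log (cd m bad i) ≤ Real.log 99 + if i ∈ bad then (3 * m + 12 : ℝ) * Real.log 2 else 0 := by
  unfold cd
  split_ifs with hb
  · have h1 : Real.log ((2 ^ (3 * m + 12) : ℕ) : ℝ) = (3 * m + 12 : ℝ) * Real.log 2 := by
      push_cast
      rw [Real.log_pow]
      push_cast
      ring
    rw [h1]
    have h2 : (0 : ℝ) ≤ Real.log 99 := Real.log_nonneg (by norm_num)
    linarith
  · norm_num

theorem sum_cd (m : ℕ) (bad : Finset ℕ) {N Nb : ℕ} (hb : ((range N).filter (· ∈ bad)).card ≤ Nb) :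
    ∑ i ∈ range N, Real.log (cd m bad i) ≤
      N * Real.log 99 + Nb * ((3 * m + 12 : ℝ) * Real.log 2) := by
  refine (Finset.sum_le_sum fun i _ => log_cd m bad i).trans ?_
  rw [Finset.sum_add_distrib, Finset.sum_const, nsmul_eq_mul, Finset.card_range, ← Finset.sum_filter,
    Finset.sum_const, nsmul_eq_mul]
  have h1 : (((range N).filter (· ∈ bad)).card : ℝ) ≤ Nb := by exact_mod_cast hb
  have h2 : (0 : ℝ) ≤ (3 * m + 12 : ℝ) * Real.log 2 :=
    mul_nonneg (by positivity) (Real.log_nonneg (by norm_num))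
  nlinarith [mul_le_mul_of_nonneg_right h1 h2]

section del

variable {δ γ ζ₁ ζ₂ : Type} {e : Rl Ω 2 δ γ ζ₁ ζ₂} {P Q : Law Ω} {n : ℕ} {E : List (Lt 2)} {q : ℝ}
  (h : Cn e P Q n E q) {Q' : Law Ω'} {π : Ω' → Ω} (hπ : ∀ w, 0 < Q'.w w → 0 < Q.w (π w))

include h hπ

open Classical in
/-- **the sum over all steps, with the numbers** -/
theorem sum_del {p : Pm} (hI : Rl.Is p e) {N Nb m : ℕ} {bad : Finset ℕ} (hN : N ≤ n)
    (hc : Cv e P Q n E N (cd m bad) (2 ^ (m + 6))) (hb : ((range N).filter (· ∈ bad)).card ≤ Nb)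
    (hA : ∀ i < N, lv n E none i < p.A) {v : ℕ → Type*} (Y : (i : ℕ) → Ω' → v i)
    (hY : ∀ i < N, Fn Q' (fun w => e.K₁ (e.T P i) (π w)) (Y i)) :
    ∑ i ∈ range N, Stk.hc Q' (fun w => e.T P (i + 1) (π w)) (Y i) ≤
      ((lv n E (some 0) N + lv n E (some 1) N : ℕ) : ℝ) * Real.log (1 / e.thr) +
        (2 * (N / (p.M + 1) + 1) : ℕ) * ((m + 6 : ℝ) * Real.log 2) +
        (N * Real.log 99 + Nb * ((3 * m + 12 : ℝ) * Real.log 2)) +
      ∑ i ∈ (range N).filter (fun i => (le' n E i).2 = none),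
        Stk.hc Q' (fun w => e.Y (e.T P i) (π w)) (Y i) := by
  have h1 := sum_all' h hπ hI hN hc hA Y hY
  have h2 := sum_cd m bad hb
  have h3 : Real.log ((2 ^ (m + 6) : ℕ) : ℝ) = (m + 6 : ℝ) * Real.log 2 := by
    push_cast
    rw [Real.log_pow]
    push_cast
    ring
  rw [h3] at h1
  linarith

open Classical in
/-- **total, with the numbers** -/
theorem total_del {p : Pm} (hI : Rl.Is p e) {N Nb m : ℕ} {bad : Finset ℕ} (hN : N ≤ n)
    (hc : Cv e P Q n E N (cd m bad) (2 ^ (m + 6))) (hb : ((range N).filter (· ∈ bad)).card ≤ Nb)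
    (hA : ∀ i < N, lv n E none i < p.A) (Z : Ω' → V) (hZ : Fn Q' (fun w => e.Z₁ (π w)) Z) :
    Stk.hc Q' (fun w => e.T P N (π w)) Z ≤
      ((lv n E (some 0) N + lv n E (some 1) N : ℕ) : ℝ) * Real.log (1 / e.thr) +
        (2 * (N / (p.M + 1) + 1) : ℕ) * ((m + 6 : ℝ) * Real.log 2) +
        (N * Real.log 99 + Nb * ((3 * m + 12 : ℝ) * Real.log 2)) +
      ∑ i ∈ (range N).filter (fun i => (le' n E i).2 = none),
        Stk.hc Q' (fun w => e.Y (e.T P i) (π w)) (fun w => (Z w, e.T P i (π w))) := by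
  have h1 := total' h hπ hI hN hc hA Z hZ
  have h2 := sum_cd m bad hb
  have h3 : Real.log ((2 ^ (m + 6) : ℕ) : ℝ) = (m + 6 : ℝ) * Real.log 2 := by
    push_cast
    rw [Real.log_pow]
    push_cast
    ring
  rw [h3] at h1
  linarith

end del

end Vale.Agent.P106.U.H823
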