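import Vale.Agent.P106.U.H823.PathW
import Vale.Agent.P106.U.H523.Nums

/-!
# P106 / U / H823 : the numbers of helper523 give the field `Path`

* `pnI` : the numbers of the path for 523's `Inp` (`r0 := rs`, offset `2`, stop `num.A`, `num.QK`), word 1 with `p = I.pm`.
* `has_of`, `path_of` : a run with these levels has `Run.Path I.num`.
* `lev_ha` : all time levels of the data are below `ha`, in digits below `A'`.
-/

set_option autoImplicit false

namespace Vale.Agent.P106.U.H823.HasN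

open Finset Vale.Agent.P127 Vale.Agent.P127.Stk Vale.Agent.P106.U.H449
open Vale.Agent.P106.U.H823.NumW Vale.Agent.P106.U.H823.PathP Vale.Agent.P106.U.H823.PathNum
open Vale.Agent.P106.U.H523.Nums

section

variable {Ω : Type} [Fintype Ω] {δ γ ζ₁ ζ₂ : Type} {I : Inp} {K1 : ℝ} {N0 : ℕ} (G : I.Good K1 N0)
  {e : Rl Ω 2 δ γ ζ₁ ζ₂} {P Q : Law Ω} {E : List (Lt 2)} {q : ℝ} (he : Rl.Is I.pm e) (h : Cn e P Q I.pm.n E q)
  {Ω' S : Type} [Fintype Ω'] (d : H785.Dat Ω' S) (hd : d.RI = Rw I.pm.n E 1) (w : S)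

/-- **the numbers of the path** -/
noncomputable def pnI : PN := PathW.pnW G.pmG he h d hd w I.m I.rs 2 I.J G.m1 I.num.A I.num.QK

variable {Ω₁ : Type} [Fintype Ω₁] {τ υ : Type} {R : S3.Run Ω₁ τ υ}

include G

/-- **a run with these levels** -/
theorem has_of (hs : d.s = 0) (hN : 4 ≤ N0) (hJ1 : A1 I.M + 1 ≤ I.J) (hJ3 : A3 0 I.M 0 + 1 ≤ I.J)
    (e1 : R.m = I.m) (e2 : R.r0 = I.rs) (e3 : R.n = (pnI G he h d hd w).n)
    (e4 : R.C.a = (pnI G he h d hd w).la) (e5 : R.C.rf = (pnI G he h d hd w).lf)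
    (e6 : R.C.rk = (pnI G he h d hd w).lk) (e7 : R.rI = (pnI G he h d hd w).lI) (e8 : R.h = I.h) (e9 : R.q = I.q) :
    Has (pnI G he h d hd w) R I.num where
  m := e1
  r0 := e2
  n := e3
  a := e4
  rf := e5
  rk := e6
  rI := e7
  J := rfl
  A := rfl
  QK := rfl
  QF := by
    show I.m * (I.q / I.m) = I.rs + I.m * (I.QFb + 2)
    have h1 := G.rs2
    have h2 := G.QFb1
    rw [← h2, Nat.mul_add, Nat.mul_add]
    omega
  B₁ := rfl
  J1 := hJ1
  J3 := by
    show A3 0 I.M d.s + 1 ≤ I.J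
    rw [hs]
    exact hJ3
  s := by
    show 2 + d.s ≤ 4
    omega
  Aw := by
    show I.m * I.Ab + I.m * (I.J + 1) ≤ I.m * I.ha
    rw [← Nat.mul_add]
    have h1 := G.Ab1
    have h2 := G.Ab2
    exact Nat.mul_le_mul_left _ (by omega)
  Ah := by
    show I.m * I.Ab + I.m * (I.J + 1) ≤ R.h
    rw [← Nat.mul_add, e8]
    have h1 := G.Ab1
    have h2 := G.Ab2
    exact le_trans (Nat.mul_le_mul_left _ (by omega)) G.hah
  A' := by
    rw [e8]
    exact ⟨G.AA, G.A'h⟩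
  QFq := by
    rw [e9]
    exact G.QFq
  rK := by
    rw [e2]
    exact ⟨G.rsK, G.KF⟩
  QKr := by
    show I.num.QK + I.m * (2 + d.s + 0) ≤ I.rs + I.m * I.QFb
    have h0 : I.num.B₁ = I.m * I.B1b := rfl
    have h1 := G.KF
    have h2 : I.num.QF = I.m * (I.q / I.m) := rfl
    have h3 := G.QFb1
    have h4 := G.rs2
    have h5 := G.B1n
    have h6 : I.m * 4 ≤ I.m * I.B1b := Nat.mul_le_mul_left _ (by omega)
    rw [h2, ← h3, h0, Nat.mul_add] at h1
    rw [hs]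
    omega

/-- **the field `Path`** -/
theorem path_of (hs : d.s = 0) (hN : 4 ≤ N0) (hJ1 : A1 I.M + 1 ≤ I.J) (hJ3 : A3 0 I.M 0 + 1 ≤ I.J)
    (e1 : R.m = I.m) (e2 : R.r0 = I.rs) (e3 : R.n = (pnI G he h d hd w).n)
    (e4 : R.C.a = (pnI G he h d hd w).la) (e5 : R.C.rf = (pnI G he h d hd w).lf)
    (e6 : R.C.rk = (pnI G he h d hd w).lk) (e7 : R.rI = (pnI G he h d hd w).lI) (e8 : R.h = I.h) (e9 : R.q = I.q) :
    R.Path I.num :=
  path (has_of G he h d hd w hs hN hJ1 hJ3 e1 e2 e3 e4 e5 e6 e7 e8 e9)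

/-- all time levels of the data -/
theorem lev_lt (hN : 1 ≤ N0) (i : ℕ) : (pnI G he h d hd w).li i < I.A'b + 1 ∧ (pnI G he h d hd w).li i ≤ I.ha := by
  have h1 := (pnI G he h d hd w).lev_N i
  have h2 : (pnI G he h d hd w).la i = I.m * (pnI G he h d hd w).li i := rfl
  have h3 : (pnI G he h d hd w).Ad = I.m * I.Ab := rfl
  have h4 : (pnI G he h d hd w).m = I.m := rfl
  have h5 : (pnI G he h d hd w).J = I.J := rfl
  rw [h2, h3, h4, h5, ← Nat.mul_add] at h1
  have h6 := Nat.lt_of_mul_lt_mul_left h1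
  have h7 := G.Ab1
  have h8 := G.Ab2
  omega

/-- in digits: the levels of the data are at most `A'` and `h` -/
theorem la_le (hN : 1 ≤ N0) (i : ℕ) : (pnI G he h d hd w).la i ≤ I.num.A' ∧ (pnI G he h d hd w).la i ≤ I.h := by
  have h1 := (lev_lt G he h d hd w hN i).1
  have h2 : (pnI G he h d hd w).la i ≤ I.m * I.A'b := Nat.mul_le_mul_left _ (by omega)
  exact ⟨h2, h2.trans G.A'h⟩

end

end Vale.Agent.P106.U.H823.HasN
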