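import Vale.Agent.P106.U.H449.Ti
import Vale.Agent.P106.U.H785.Word2
import Vale.Agent.P106.U.H823.PathP

/-!
# P106 / U / H823 : the numbers of the two words (in blocks), gains in bounded numbers of LEVELS

Word 1 : `F a = Rw n E 0 a` (own slope), `I a = Rw n E 1 a` (line); word 2 : `R a` (785's `RW a w`).

* `A1 M = 2 M + 3`, `A2 B₀ M`, `A3 B₀ M s` : numbers of levels.
* `tw_add`, `gapF`, `gapI` : `F` (`I`) rises within `A1` (`A2`) levels before the end of the time, if it is not complete.
* `Nm F I R A QF B₀ B₁ M s` : all properties of the three functions which are used; `nm_of` : the two words have them.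
* `Nm.gapR` : `R` rises within `A3` levels.
* `Nm.dR` : `R a' - R a ≤ (2 + s) (a' - a) + (I a' - I a)`.
-/

set_option autoImplicit false

namespace Vale.Agent.P106.U.H823.NumW

open Finset Vale.Agent.P127 Vale.Agent.P127.Stk Vale.Agent.P106.U.H449

/-- levels for a gain of the own slope -/
def A1 (M : ℕ) : ℕ := 2 * M + 3

/-- levels for a gain of the line -/
def A2 (B₀ M : ℕ) : ℕ := (B₀ + 1) * (M + 1) + (M + 2)

/-- levels for a gain of the second word -/
def A3 (B₀ M s : ℕ) : ℕ := (2 + s) * A2 B₀ M + 2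

section word

variable {Ω : Type} [Fintype Ω] {δ γ ζ₁ ζ₂ : Type} {e : Rl Ω 2 δ γ ζ₁ ζ₂} {P Q : Law Ω} {p : Pm}
  {E : List (Lt 2)} {q : ℝ}

theorem tw_add {n : ℕ} (h : Cn e P Q n E q) {a : ℕ} (k : ℕ) (hk : a + k ≤ lv n E none n) :
    tw n E a + k ≤ tw n E (a + k) := by
  induction k with
  | zero => exact le_rfl
  | succ k ih =>
    have h1 := ih (by omega)
    have h2 := h.tw_strict (a := a + k) (b := a + k + 1) (Nat.lt_succ_self _) (by omega)
    show tw n E a + (k + 1) ≤ tw n E (a + k + 1)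
    omega

variable (hp : p.Good) (he : Rl.Is p e) (h : Cn e P Q p.n E q)

include hp he h

theorem none_top : lv p.n E none p.n = p.A := (h.lv_top hp he).1

theorem none_lt {a k i : ℕ} (hk : a + k < p.A) (hi : i ≤ tw p.n E a + k) :
    lv p.n E none i < p.A ∧ i < p.n := by
  have h0 := none_top hp he h
  have h1 := tw_add h (a := a) k (by omega)
  have h2 := h.tw_lt (a := a + k) (by omega)
  have h3 := h.tw_lv (a := a + k) (by omega)
  have h4 := h.lv_mono none (i := i) (j := tw p.n E (a + k)) (by omega) h2.le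
  omega

/-- **the own slope rises within `A1` levels** -/
theorem gapF {a : ℕ} (ha : a + A1 p.M < p.A) (hF : Rw p.n E 0 a < p.QF) :
    Rw p.n E 0 a < Rw p.n E 0 (a + A1 p.M) := by
  have hB := hp.B
  have h0 := none_top hp he h
  unfold A1 at ha ⊢
  have hT : ∀ k, k ≤ 2 * p.M + 3 → tw p.n E a + k ≤ tw p.n E (a + k) := fun k hk => tw_add h k (by omega)
  have hT3 := hT (2 * p.M + 3) le_rfl
  have hlt := h.tw_lt (a := a + (2 * p.M + 3)) (by omega)
  set i := tw p.n E a with hi
  have hin : i < p.n := by omega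
  -- a φ-step soon gives the claim
  have key : ∀ j, i ≤ j → j + 1 ≤ i + (2 * p.M + 3) → (le' p.n E j).2 = some 0 →
      Rw p.n E 0 a < Rw p.n E 0 (a + (2 * p.M + 3)) := by
    intro j h1 h2 h3
    have h4 := h.lv_succ (some 0) (i := j) (by omega)
    rw [if_pos h3] at h4
    have h5 := h.lv_mono (some 0) h1 (by omega)
    have h6 := h.lv_mono (some 0) (i := j + 1) (j := tw p.n E (a + (2 * p.M + 3))) (by omega) (by omega)
    show lv p.n E (some 0) i < lv p.n E (some 0) (tw p.n E (a + (2 * p.M + 3)))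
    omega
  have hinv := h.lv_inv he (i := i) hin.le
  have hF' : lv p.n E (some 0) i < p.QF := hF
  rcases Nat.lt_or_ge (lv p.n E (some 0) i) (lv p.n E (some 1) i + p.B₁) with h1 | h1
  · obtain ⟨j, g1, g2, g3⟩ := h.gap0 he (i := i) (by omega) hF' h1
    exact key j g1 (by omega) g3
  · obtain ⟨j, g1, g2, g3⟩ := h.gap1 hp he (i := i) (by omega) (by omega)
      (none_lt hp he h (a := a) (k := p.M + 1) (by omega) (by omega)).1
    have h4 := h.lv_succ (some 1) (i := j) (by omega)
    rw [if_pos g3] at h4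
    have h5 := h.lv_mono (some 1) g1 (by omega)
    rcases Nat.lt_or_ge (lv p.n E (some 0) i) (lv p.n E (some 0) (j + 1)) with h2 | h2
    · have h6 := h.lv_mono (some 0) (i := j + 1) (j := tw p.n E (a + (2 * p.M + 3))) (by omega) (by omega)
      show lv p.n E (some 0) i < lv p.n E (some 0) (tw p.n E (a + (2 * p.M + 3)))
      omega
    · obtain ⟨j', k1, k2, k3⟩ := h.gap0 he (i := j + 1) (by omega) (by omega) (by omega)
      exact key j' (by omega) (by omega) k3

/-- without a line step the own slope rises to `K0 + B₀ + 1` -/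
theorem climb {i : ℕ} (t : ℕ) (hi : i + t * (p.M + 1) < p.n) (hQ : lv p.n E (some 1) i + p.B₀ < p.QF)
    (hno : ∀ j, i ≤ j → j < i + t * (p.M + 1) → (le' p.n E j).2 ≠ some 1) :
    min (lv p.n E (some 0) i + t) (lv p.n E (some 1) i + p.B₀ + 1) ≤
      lv p.n E (some 0) (i + t * (p.M + 1)) := by
  have hB := hp.B
  induction t with
  | zero =>
    rw [Nat.zero_mul, Nat.add_zero, Nat.add_zero]
    exact min_le_left _ _
  | succ t ih =>
    have e1 : i + (t + 1) * (p.M + 1) = i + t * (p.M + 1) + (p.M + 1) := by ring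
    rw [e1] at hi hno ⊢
    have ih' := ih (by omega) fun j h1 h2 => hno j h1 (by omega)
    set i' := i + t * (p.M + 1) with hi'
    have hmono := h.lv_mono (some 0) (i := i') (j := i' + (p.M + 1)) (by omega) (by omega)
    rcases Nat.lt_or_ge (lv p.n E (some 0) i') (lv p.n E (some 1) i + p.B₀ + 1) with h1 | h1
    · -- no line step so far
      have h2 : ∀ j, i ≤ j → j ≤ i' → lv p.n E (some 1) j = lv p.n E (some 1) i := by
        intro j hj
        induction j, hj using Nat.le_induction with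
        | base => intro _; rfl
        | succ j hj ih2 =>
          intro hj'
          rw [h.lv_succ (some 1) (i := j) (by omega), if_neg (hno j hj (by omega)), ih2 (by omega),
            Nat.add_zero]
      have h3 := h2 i' (by omega) le_rfl
      obtain ⟨j, g1, g2, g3⟩ := h.gap0 he (i := i') (by omega) (by omega) (by omega)
      have h4 := h.lv_succ (some 0) (i := j) (by omega)
      rw [if_pos g3] at h4
      have h5 := h.lv_mono (some 0) g1 (by omega)
      have h6 := h.lv_mono (some 0) (i := j + 1) (j := i' + (p.M + 1)) (by omega) (by omega)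
      omega
    · omega

/-- **the line rises within `A2` levels** -/
theorem gapI {a : ℕ} (ha : a + A2 p.B₀ p.M < p.A) (hF : Rw p.n E 1 a + p.B₀ < p.QF) :
    Rw p.n E 1 a < Rw p.n E 1 (a + A2 p.B₀ p.M) := by
  have hB := hp.B
  have h0 := none_top hp he h
  have hT3 := tw_add h (a := a) (A2 p.B₀ p.M) (by omega)
  have hlt := h.tw_lt (a := a + A2 p.B₀ p.M) (by omega)
  have hA2 : A2 p.B₀ p.M = (p.B₀ + 1) * (p.M + 1) + (p.M + 2) := rfl
  set i := tw p.n E a with hi
  have hin : i < p.n := by omega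
  -- a line step soon gives the claim
  have key : ∀ j, i ≤ j → j + 1 ≤ i + A2 p.B₀ p.M → (le' p.n E j).2 = some 1 →
      Rw p.n E 1 a < Rw p.n E 1 (a + A2 p.B₀ p.M) := by
    intro j h1 h2 h3
    have h4 := h.lv_succ (some 1) (i := j) (by omega)
    rw [if_pos h3] at h4
    have h5 := h.lv_mono (some 1) h1 (by omega)
    have h6 := h.lv_mono (some 1) (i := j + 1) (j := tw p.n E (a + A2 p.B₀ p.M)) (by omega) (by omega)
    show lv p.n E (some 1) i < lv p.n E (some 1) (tw p.n E (a + A2 p.B₀ p.M))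
    omega
  by_contra hcon
  have hno : ∀ j, i ≤ j → j + 1 ≤ i + A2 p.B₀ p.M → (le' p.n E j).2 ≠ some 1 :=
    fun j h1 h2 h3 => hcon (key j h1 h2 h3)
  have hF' : lv p.n E (some 1) i + p.B₀ < p.QF := hF
  have h1 := climb hp he h (i := i) (p.B₀ + 1) (by omega) hF' fun j g1 g2 => hno j g1 (by omega)
  have hinv := h.lv_inv he (i := i) hin.le
  set i' := i + (p.B₀ + 1) * (p.M + 1) with hi'
  have h2 : ∀ j, i ≤ j → j ≤ i' → lv p.n E (some 1) j = lv p.n E (some 1) i := by
    intro j hj
    induction j, hj using Nat.le_induction with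
    | base => intro _; rfl
    | succ j hj ih2 =>
      intro hj'
      rw [h.lv_succ (some 1) (i := j) (by omega), if_neg (hno j hj (by omega)), ih2 (by omega),
        Nat.add_zero]
  have h3 := h2 i' (by omega) le_rfl
  have hnA := (none_lt hp he h (a := a) (k := A2 p.B₀ p.M) (by omega) (i := i' + p.M + 1) (by omega)).1
  obtain ⟨j, g1, g2, g3⟩ := h.gap1 hp he (i := i') (by omega) (by omega) hnA
  exact hno j (by omega) (by omega) g3

end word

/-! ### the three functions -/

/-- the numbers of the two words, in blocks -/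
structure Nm (F I R : ℕ → ℕ) (A QF B₀ B₁ M s : ℕ) : Prop where
  Fm : Monotone F
  Im : Monotone I
  Rm : Monotone R
  IF : ∀ a, I a ≤ F a
  RI : ∀ a, R a ≤ I a
  FI : ∀ a, F a ≤ I a + B₁
  FQ : ∀ a, F a ≤ QF
  gF : ∀ a, a + A1 M < A → F a < QF → F a < F (a + A1 M)
  gI : ∀ a, a + A2 B₀ M < A → I a + B₀ < QF → I a < I (a + A2 B₀ M)
  diag : ∀ a k, R a + k + s ≤ I a → R a + k ≤ R (a + k) + 1
  jump : ∀ a, R a + 3 ≤ R (a + 1) → I a ≤ R a + 1 + s

/-- **the two words** -/
theorem nm_of {Ω : Type} [Fintype Ω] {δ γ ζ₁ ζ₂ : Type} {e : Rl Ω 2 δ γ ζ₁ ζ₂} {P Q : Law Ω} {p : Pm}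
    {E : List (Lt 2)} {q : ℝ} (hp : p.Good) (he : Rl.Is p e) (h : Cn e P Q p.n E q)
    {Ω' S : Type} [Fintype Ω'] (d : H785.Dat Ω' S) (hd : d.RI = Rw p.n E 1) (w : S) :
    Nm (Rw p.n E 0) (Rw p.n E 1) (fun a => d.RW a w) p.A p.QF p.B₀ p.B₁ p.M d.s where
  Fm := h.Rw_mono 0
  Im := h.Rw_mono 1
  Rm := d.RW_mono w
  IF := fun a => by
    have h1 := h.lv_inv he (i := tw p.n E a) (Cn.tw_le a)
    show lv p.n E (some 1) (tw p.n E a) ≤ lv p.n E (some 0) (tw p.n E a)
    omega
  RI := fun a => by
    have := d.RW_le' a w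
    rw [hd] at this
    exact this
  FI := fun a => (h.lv_inv he (i := tw p.n E a) (Cn.tw_le a)).2.1
  FQ := fun a => (h.lv_inv he (i := tw p.n E a) (Cn.tw_le a)).1
  gF := fun a ha hF => gapF hp he h ha hF
  gI := fun a ha hF => gapI hp he h ha hF
  diag := fun a k hk => d.RW_diag a w k (by rw [hd]; exact hk)
  jump := fun a ha => by
    have := d.RW_jump (a := a) (w := w) ha
    rw [hd] at this
    exact this

namespace Nm

variable {F I R : ℕ → ℕ} {A QF B₀ B₁ M s : ℕ} (h : Nm F I R A QF B₀ B₁ M s)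

include h

/-- **the second word rises within `A3` levels** -/
theorem gapR {a : ℕ} (ha : a + A3 B₀ M s < A) (hR : R a + 2 + s + B₀ ≤ QF) :
    R a < R (a + A3 B₀ M s) := by
  unfold A3 at ha ⊢
  have key : ∀ t, t ≤ 2 + s → R a + t ≤ I (a + t * A2 B₀ M) := by
    intro t
    induction t with
    | zero => intro _; rw [Nat.zero_mul, Nat.add_zero, Nat.add_zero]; exact h.RI a
    | succ t ih =>
      intro ht
      have ih' := ih (by omega)
      have h3 : t * A2 B₀ M + A2 B₀ M ≤ (2 + s) * A2 B₀ M := by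
        rw [← Nat.succ_mul]
        exact Nat.mul_le_mul_right _ ht
      have e1 : a + (t + 1) * A2 B₀ M = a + t * A2 B₀ M + A2 B₀ M := by ring
      rw [e1]
      have hm := h.Im (Nat.le_add_right (a + t * A2 B₀ M) (A2 B₀ M))
      rcases Nat.lt_or_ge (R a + t) (I (a + t * A2 B₀ M)) with h1 | h1
      · omega
      · have h2 := h.gI (a + t * A2 B₀ M) (by omega) (by omega)
        omega
  have h1 := key (2 + s) le_rfl
  set a' := a + (2 + s) * A2 B₀ M with ha'
  have h2 := h.Rm (show a ≤ a' by omega)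
  have h3 : a + ((2 + s) * A2 B₀ M + 2) = a' + 2 := by omega
  rw [h3]
  have h4 := h.Rm (show a' ≤ a' + 2 by omega)
  rcases Nat.lt_or_ge (R a) (R a') with h5 | h5
  · omega
  · have h6 := h.diag a' 2 (by omega)
    omega

/-- the rise of the second word -/
theorem dR {a a' : ℕ} (haa : a ≤ a') : R a' + I a ≤ R a + (2 + s) * (a' - a) + I a' := by
  induction a', haa using Nat.le_induction with
  | base => rw [Nat.sub_self]; omega
  | succ b hb ih =>
    have h1 := h.Rm (Nat.le_succ b)
    have h2 := h.Im (Nat.le_succ b)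
    have h3 : b + 1 - a = (b - a) + 1 := by omega
    have h4 : (2 + s) * (b + 1 - a) = (2 + s) * (b - a) + (2 + s) := by rw [h3]; ring
    simp only [Nat.succ_eq_add_one] at h1 h2
    rcases Nat.lt_or_ge (R (b + 1)) (R b + 3) with h5 | h5
    · omega
    · have h6 := h.jump b h5
      have h7 := h.RI (b + 1)
      omega

end Nm

end Vale.Agent.P106.U.H823.NumW
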