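import Vale.Agent.P106.U.H823.PathNum
import Vale.Agent.P106.U.H824.LinkR
import Vale.Agent.P106.U.H449.RayDefs

/-!
# P106 / U / H823 : the numbers of the path of the two words (helper449's word 1, helper785's word 2)

* `pnW` : `PathNum.PN` for a word `E` of word 1 (`Cn`) and the second word at one value `w` of the variable `d.W`.
* `T_tw` : `PN.T a = tw p.n E a` (number of steps of word 1), `tw_gap` : number of steps of the path from a step of the time.
* `RW_eq` : under `Cnd2` the second word does not depend on the point.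
-/

set_option autoImplicit false

namespace Vale.Agent.P106.U.H823.PathW

open Finset Vale.Agent.P127 Vale.Agent.P127.Stk Vale.Agent.P106.U.H449
open Vale.Agent.P106.U.H823.NumW Vale.Agent.P106.U.H823.PathP Vale.Agent.P106.U.H823.PathNum

section

variable {Ω : Type} [Fintype Ω] {δ γ ζ₁ ζ₂ : Type} {e : Rl Ω 2 δ γ ζ₁ ζ₂} {P Q : Law Ω} {p : Pm}
  {E : List (Lt 2)} {q : ℝ} (hp : p.Good) (he : Rl.Is p e) (h : Cn e P Q p.n E q)
  {Ω' S : Type} [Fintype Ω'] (d : H785.Dat Ω' S) (hd : d.RI = Rw p.n E 1) (w : S)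
  (m r0 o J : ℕ) (m1 : 1 ≤ m) (Ad QK : ℕ)

/-- **the numbers of the path of the two words** -/
noncomputable def pnW : PN where
  F := Rw p.n E 0
  I := Rw p.n E 1
  R := fun a => d.RW a w
  A := p.A
  QF := p.QF
  B₀ := p.B₀
  B₁ := p.B₁
  M := p.M
  s := d.s
  nm := nm_of hp he h d hd w
  m := m
  r0 := r0
  o := o
  J := J
  m1 := m1
  Ad := Ad
  QK := QK

theorem T_tw {a : ℕ} (ha : a ≤ p.A) : (pnW hp he h d hd w m r0 o J m1 Ad QK).T a = tw p.n E a := by
  have h0 := none_top hp he h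
  have h1 := h.tw_lv (a := a) (by omega)
  have h2 := h.lv_sum (i := tw p.n E a) (Cn.tw_le a)
  show a + lv p.n E (some 0) (tw p.n E a) + lv p.n E (some 1) (tw p.n E a) = _
  omega

/-- **from a step of the time** : steps of the path, steps of word 1 -/
theorem tw_gap {i j : ℕ} (hi : (pnW hp he h d hd w m r0 o J m1 Ad QK).L.kd i = 0) (hij : i ≤ j)
    (hj : (pnW hp he h d hd w m r0 o J m1 Ad QK).L.lev j ≤ p.A) :
    (j - i) + (3 + d.s) * tw p.n E ((pnW hp he h d hd w m r0 o J m1 Ad QK).L.lev i) ≤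
      (3 + d.s) * tw p.n E ((pnW hp he h d hd w m r0 o J m1 Ad QK).L.lev j) := by
  set D := pnW hp he h d hd w m r0 o J m1 Ad QK with hD
  have h1 := D.step_gap hi hij
  rw [show D.T (D.L.lev i) = tw p.n E (D.L.lev i) from
      T_tw hp he h d hd w m r0 o J m1 Ad QK ((D.L.lev_mono hij).trans hj),
    show D.T (D.L.lev j) = tw p.n E (D.L.lev j) from T_tw hp he h d hd w m r0 o J m1 Ad QK hj] at h1
  exact h1

end

/-- the second word does not depend on the point -/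
theorem RW_eq {Ω S : Type} [Fintype Ω] {d : H785.Dat Ω S} {Q : Law Ω} {A : ℕ} {E : Fin (A + 1) → ℕ}
    (h : d.Cnd2 Q A E) {ω ω' : Ω} (hω : 0 < Q.w ω) (hω' : 0 < Q.w ω') {a : ℕ} (ha : a ≤ A) :
    d.RW a (d.W ω) = d.RW a (d.W ω') := by
  have h1 := h.RW_eq hω ⟨a, Nat.lt_succ_of_le ha⟩
  have h2 := h.RW_eq hω' ⟨a, Nat.lt_succ_of_le ha⟩
  exact h1.trans h2.symm

/-- the relative data of helper824 have the right first path -/
theorem datR_RI {Ω : Type} [Fintype Ω] {γ ζ₁ ζ₂ : Type} {e : Rl Ω 2 (ℤ × ℤ) γ ζ₁ ζ₂} {P Q : Law Ω} {n : ℕ}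
    {E : List (Lt 2)} {q : ℝ} {m : ℕ} {d0 : Vale.Agent.P106.U.StripL.Ld} {t κ : Ω → ℝ} {S : Type}
    (h : Cn e P Q n E q) (hL : Vale.Agent.P106.U.StripE.IsL m d0 t κ e) (hm : 3 ≤ m)
    (W : Ω → S) (c : ℝ) (hc0 : 0 ≤ c) (hc1 : c < 1 / 2) :
    (LinkR.datR h hL hm W c hc0 hc1).RI = Rw n E 1 := rfl

end Vale.Agent.P106.U.H823.PathW
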