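import Vale.Agent.P106.U.H823.Cmp
import Vale.Agent.P106.U.H833.Cap2
import Vale.Agent.P106.U.H118.HeavyRun

/-!
# P106 / U / H823 : transfer to the compressed path

`f : ℕ → ℕ` monotone (for a run: `Cmp.idx R x`).

* `sum_blk` : sums over blocks of the path, `Ico j0 j1`.
* `qc_re` : price of a step of the compressed path ≤ sum of the prices;  `blk q f j` : sum of `q` over the block `j`.
* `heavy_re` : the heavy intervals of the compressed path from those of the path (`H118.heavy_run`).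
-/

set_option autoImplicit false

namespace Vale.Agent.P106.U.H823.Tr

open Finset Vale.Agent.P127 Vale.Agent.P127.Stk Vale.Agent.P106.U.H833 Vale.Agent.P106.U.S3
open Vale.Agent.P106.U.H823.Cmp

/-- sum of `q` over the block `j` -/
def blk (q : ℕ → ℝ) (f : ℕ → ℕ) (j : ℕ) : ℝ := ∑ k ∈ Ico (f j) (f (j + 1)), q k

theorem sum_blk (q : ℕ → ℝ) {f : ℕ → ℕ} (hf : Monotone f) {j0 j1 : ℕ} (h : j0 ≤ j1) :
    ∑ j ∈ Ico j0 j1, blk q f j = ∑ k ∈ Ico (f j0) (f j1), q k := by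
  induction j1, h using Nat.le_induction with
  | base => simp
  | succ j1 h ih =>
    rw [Finset.sum_Ico_succ_top h, ih]
    unfold blk
    rw [Finset.sum_Ico_consecutive _ (hf h) (hf (Nat.le_succ j1))]

theorem blk_nonneg {q : ℕ → ℝ} (hq : ∀ k, 0 ≤ q k) (f : ℕ → ℕ) (j : ℕ) : 0 ≤ blk q f j :=
  Finset.sum_nonneg fun k _ => hq k

theorem blk_add (q q' : ℕ → ℝ) (f : ℕ → ℕ) (j : ℕ) :
    blk (fun k => q k + q' k) f j = blk q f j + blk q' f j := Finset.sum_add_distrib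

section

variable {Ω : Type} [Fintype Ω] (P : Law Ω) {Λ κ ζ δ : Type*}

/-- **price of a step of the compressed path** -/
theorem qc_re (l : Ω → Λ) {Z : ℕ → Ω → ζ} {tm : ℕ → Ω → δ} {n : ℕ} (htm : ∀ i < n, Fn P (tm i) (tm (i + 1)))
    {f : ℕ → ℕ} (hf : Monotone f) {j : ℕ} (hj : f (j + 1) ≤ n) :
    qc P l (fun i => Z (f i)) (fun i => tm (f i)) j ≤ blk (qc P l Z tm) f j :=
  cost_time P l (Z := Z) (tm := tm) htm (hf (Nat.le_succ j)) hj

theorem psi_re (l : Ω → Λ) (Z : ℕ → Ω → ζ) (C : ℕ → Ω → κ) (f : ℕ → ℕ) (j : ℕ) :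
    psi P l (fun i => Z (f i)) (fun i => C (f i)) j = psi P l Z C (f j) := rfl

end

/-- **heavy intervals of the compressed path** -/
theorem heavy_re {n N : ℕ} {f : ℕ → ℕ} (hf : Monotone f) (hfs : ∀ j k, j < k → j < N → f j < f k)
    (hN : ∀ j ≤ N, f j ≤ n) {g : ℕ → Prop} {a R : ℕ → ℕ} {M1 : ℕ} {m δ cw ch : ℝ} {u q ψ : ℕ → ℝ}
    (H : ∀ i i1, g i → i < i1 → i1 ≤ n → R i + M1 < R i1 →
      m * (1 - δ) * ((R i1 : ℝ) - R i) - m * cw * ((a i1 : ℝ) - a i) -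
        ∑ z ∈ Icc (a i) (a i + (R i1 - R i)), u z - ch - ∑ j ∈ Ico i i1, q j ≤ ψ i1 - ψ i) :
    ∀ i i1, g (f i) → i < i1 → i1 ≤ N → R (f i) + M1 < R (f i1) →
      m * (1 - δ) * ((R (f i1) : ℝ) - R (f i)) - m * cw * ((a (f i1) : ℝ) - a (f i)) -
        ∑ z ∈ Icc (a (f i)) (a (f i) + (R (f i1) - R (f i))), u z - ch - ∑ j ∈ Ico i i1, blk q f j ≤
      ψ (f i1) - ψ (f i) := by
  intro i i1 hg hi hi1 hR
  have h1 := H (f i) (f i1) hg (hfs i i1 hi (by omega)) (hN i1 hi1) hR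
  rw [sum_blk q hf hi.le]
  exact h1

section run

variable {Ω : Type} [Fintype Ω] {τ υ : Type} {R : Run Ω τ υ} {p : Run.Num}

/-- the same for the compressed path of a run at the cap `x` -/
theorem heavy_idx (hP : R.Path p) (x : ℕ) {g : ℕ → Prop} {M1 : ℕ} {m δ cw ch : ℝ} {u q ψ : ℕ → ℝ}
    (H : ∀ i i1, g i → i < i1 → i1 ≤ R.n → RN R x i + M1 < RN R x i1 →
      m * (1 - δ) * ((RN R x i1 : ℝ) - RN R x i) - m * cw * ((aN R i1 : ℝ) - aN R i) -
        ∑ z ∈ Icc (aN R i) (aN R i + (RN R x i1 - RN R x i)), u z - ch - ∑ j ∈ Ico i i1, q j ≤ ψ i1 - ψ i) :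
    ∀ i i1, g (idx R x i) → i < i1 → i1 ≤ Nc R x → RN R x (idx R x i) + M1 < RN R x (idx R x i1) →
      m * (1 - δ) * ((RN R x (idx R x i1) : ℝ) - RN R x (idx R x i)) -
        m * cw * ((aN R (idx R x i1) : ℝ) - aN R (idx R x i)) -
        ∑ z ∈ Icc (aN R (idx R x i)) (aN R (idx R x i) + (RN R x (idx R x i1) - RN R x (idx R x i))), u z - ch -
        ∑ j ∈ Ico i i1, blk q (idx R x) j ≤ ψ (idx R x i1) - ψ (idx R x i) :=
  heavy_re (f := idx R x) (g := g) (a := aN R) (R := RN R x) idx_mono (fun _ _ h h' => idx_strict hP h h')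
    (fun j _ => idx_le j) H

/-- the exceptional steps of the time -/
theorem exc_idx (hP : R.Path p) (x : ℕ) {g : ℕ → Prop} {E : Finset ℕ}
    (hE : ∀ i < R.n, R.IsA i → ¬ g i → i ∈ E) :
    ∃ E' : Finset ℕ, E'.card ≤ E.card ∧
      ∀ j < Nc R x, aN R (idx R x (j + 1)) = aN R (idx R x j) + 1 → ¬ g (idx R x j) → j ∈ E' := by
  classical
  refine ⟨E.image (cN R x), Finset.card_image_le, fun j hj ha hg => ?_⟩
  rw [Finset.mem_image]
  have h1 := idx_lt hP hj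
  rcases step2 hP hj with ⟨h2, _⟩ | ⟨_, h3, _⟩
  · exact ⟨idx R x j, hE _ h1 h2 hg, c_idx hP hj.le⟩
  · omega

end run

end Vale.Agent.P106.U.H823.Tr
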